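import Vale.Agent.P225.Assembly.Ideal
import Vale.Agent.P225.Assembly.Rates.Parts

/-!
P225, assembly: the diagonal exponents of a cluster. Favourable dwells dominate everything before
them, waits dominate the time before them, and the last exponent is the exponent at the normal
point times the long dwell.
-/

noncomputable section

namespace Vale.Agent.P225

open Matrix SU2 ClusterRate
open scoped ComplexOrder Matrix.Norms.L2Operator

/-- The size of everything the residuals create in cluster `j`. -/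
def errSize (j : ℕ) : ℝ := Real.exp (-2 * (j : ℝ) ^ 4)

/-- Rate bounds independent of the path: for a large ratio the response hypotheses hold and the
decay after every control beats the growth before it. -/
theorem clusterExp_response (S : Schedule) :
    ∃ Ca : ℝ, 0 < Ca ∧ ∃ R₀ : ℕ, ∀ R ≥ R₀, ∃ j₁ : ℕ, ∀ (d : PathData) (r₂ β φ₀ : ℝ),
      S.Adm R d r₂ β φ₀ → j₁ ≤ d.j₀ → ∀ p : Param, InBox d p → ∀ i : ℕ,
      let c := S.cd (d.j₀ + i)
      let a := clusterExp d r₂ β p c i
      let A : ℕ → ℝ := fun k => Ca * (expNode d c.len i (k + 1) - expNode d c.len i k) + 1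
      (∀ k ≤ c.len, ∀ t ∈ band, |a k t| ≤ A k) ∧
      (∀ k, 1 ≤ k → k < c.len → ∀ X ∈ band, ∀ Y ∈ band, cas4 X < cas4 Y → parity X = parity Y →
        2 * ∑ m ∈ Finset.range k, A m ≤ a k Y - a k X) ∧
      (∀ l < c.len, 2 * Ca * (ctrlEnd d i l - clusterStart d i) +
          3 * ((d.j₀ + i : ℕ) : ℝ) ^ 4 ≤
        24 / 5 * (segEnd d i l - ctrlEnd d i l)) ∧
      ∀ l < c.len, ∀ t ∈ band,
        |freeDecay d r₂ β (ctrlStart d i l) (ctrlEnd d i l) t| ≤
          Ca * (ctrlEnd d i l - ctrlStart d i l) := by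
  obtain ⟨Ca, Cd, hCa, hCd, hdec⟩ := decay_consts
  obtain ⟨N, hN⟩ := exists_size S
  refine ⟨Ca, hCa, max 2 ⌈128 / 3 * (2 * Ca * (N + 3) + 2 * Cd + 2 + 2 * Ca * (2 * N + 11) +
    2 * N + 2 * Ca * (3 * N + 11) + 3)⌉₊, fun R hR => ?_⟩
  have hR2 : 2 ≤ R := le_trans (le_max_left _ _) hR
  have hRK : 2 * Ca * (N + 3) + 2 * Cd + 2 + 2 * Ca * (2 * N + 11) + 2 * N +
      2 * Ca * (3 * N + 11) + 3 ≤ 3 / 128 * (R : ℝ) := by
    have := (Nat.le_ceil _).trans (Nat.cast_le (α := ℝ).2 (le_trans (le_max_right _ _) hR))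
    linarith
  obtain ⟨jn, hjn⟩ := exists_shift S R
  obtain ⟨jd, hjd⟩ := drift_small (show (0 : ℝ) < 1 / (256 * (Cd + 1)) by positivity)
  refine ⟨max jn jd, fun d r₂ β φ₀ h hj p hp i => ?_⟩
  intro c a A
  have hd := h.good
  have hshift := hjn d r₂ β φ₀ h ((le_max_left _ _).trans hj) p hp i
  have hb := fun k (hk : k ≤ c.len) t (ht : t ∈ band) =>
    exp_le h (fun t ht s u hs hu => (hdec d r₂ β φ₀ hd t ht s u hs hu).1) hshift hk ht
  have hE := one_le_fourth h i
  have hR' : (2 : ℝ) ≤ R := by exact_mod_cast hR2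
  refine ⟨hb, fun k hk1 hk X hX Y hY hXY _ => ?_, fun l hl => ?_, fun l hl t ht => ?_⟩
  · obtain ⟨m, rfl⟩ : ∃ m, k = m + 1 := ⟨k - 1, by omega⟩
    refine dominate h hCa hCd (fun t ht s u => hdec d r₂ β φ₀ hd t ht s u) (fun s hs => ?_) hN hR2
      ?_ hshift hk hX hY hXY
    · refine (mul_le_mul_of_nonneg_left
        (hjd d r₂ β φ₀ hd ((le_max_right _ _).trans hj) s hs) hCd).trans ?_
      rw [mul_one_div, div_le_div_iff₀ (by positivity) (by norm_num)]
      linarith
    · have : 0 ≤ 2 * Ca * (3 * (N : ℝ) + 11) + 3 := by positivity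
      linarith
  · refine wait_dominate h hCa hN hR2 ?_ hl
    have : 0 ≤ 2 * Ca * ((N : ℝ) + 3) + 2 * Ca * (2 * N + 11) + 2 * N + 2 * Cd := by positivity
    linarith
  · refine (hdec d r₂ β φ₀ hd t ht _ _ ?_ ?_).1
    · rw [ctrlStart_eq]
      linarith [stage_ge h i (l := l) hl.le]
    · rw [ctrlEnd_eq h i l hl, ctrlStart_eq]
      have : (0 : ℝ) ≤ ((c.stage ⟨l, hl⟩).nLet : ℝ) := Nat.cast_nonneg _
      nlinarith

/-- Only the long dwell counts, up to `O(j⁴)` and any small fraction of the dwell. -/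
theorem clusterExp_last (S : Schedule) :
    ∀ R : ℕ, ∃ C : ℝ, 0 < C ∧ ∀ θ > 0, ∃ j₁ : ℕ, ∀ (d : PathData) (r₂ β φ₀ : ℝ),
      S.Adm R d r₂ β φ₀ → j₁ ≤ d.j₀ → ∀ p : Param, InBox d p → ∀ i : ℕ,
        let c := S.cd (d.j₀ + i)
        let a := clusterExp d r₂ β p c i
        let τ := ((d.j₀ + i : ℕ) : ℝ) ^ 5
        (∀ k < c.len, ∀ t ∈ band, |a k t| ≤ C * ((d.j₀ + i : ℕ) : ℝ) ^ 4) ∧
        ∀ t ∈ band, |a c.len t - expo (27 / 4) t * τ| ≤
          C * ((d.j₀ + i : ℕ) : ℝ) ^ 4 + θ * τ := by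
  intro R
  obtain ⟨Ca, Cd, hCa, hCd, hdec⟩ := decay_consts
  obtain ⟨N, hN⟩ := exists_size S
  obtain ⟨jn, hjn⟩ := exists_shift S R
  set M : ℝ := N + 2 * ((R : ℝ) + 1) ^ (2 * N) + 3 with hM
  refine ⟨Ca * (N * M) + Ca * M + Cd + 2, by positivity, fun θ hθ => ?_⟩
  obtain ⟨jd, hjd⟩ := drift_small (show (0 : ℝ) < θ / (Cd + 1) by positivity)
  refine ⟨max jn jd, fun d r₂ β φ₀ h hj p hp i => ?_⟩
  intro c a τ
  have hd := h.good
  have hE := one_le_fourth h i
  set E : ℝ := ((d.j₀ + i : ℕ) : ℝ) ^ 4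
  have hM0 : 0 ≤ M := by positivity
  have hstep : ∀ l < c.len, stageStart d i l + E ≤ stageStart d i (l + 1) ∧
      stageStart d i (l + 1) ≤ stageStart d i l + M * E := fun l hl => by
    rw [stage_succ h i l hl]
    have hn : ((c.stage ⟨l, hl⟩).nLet : ℝ) ≤ N := by exact_mod_cast (hN _).2 _
    have hlN : l < N := hl.trans_le (hN _).1
    have hp : ∀ e ≤ 2 * N, (R : ℝ) ^ e ≤ ((R : ℝ) + 1) ^ (2 * N) := fun e he =>
      (pow_le_pow_left₀ (Nat.cast_nonneg R) (by linarith) e).trans
        (pow_le_pow_right₀ (by linarith [(Nat.cast_nonneg R : (0 : ℝ) ≤ R)]) he)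
    have p1 := hp (2 * l + 1) (by omega)
    have p2 : (if l + 1 < c.len then (R : ℝ) ^ (2 * l + 2) else 0) ≤ ((R : ℝ) + 1) ^ (2 * N) := by
      split_ifs
      · exact hp _ (by omega)
      · positivity
    have p3 : 0 ≤ (if l + 1 < c.len then (R : ℝ) ^ (2 * l + 2) else 0) := by
      split_ifs <;> positivity
    have p4 : 0 ≤ (R : ℝ) ^ (2 * l + 1) := by positivity
    have p5 : (0 : ℝ) ≤ ((c.stage ⟨l, hl⟩).nLet : ℝ) := Nat.cast_nonneg _
    constructor <;> nlinarith
  have hfrom : ∀ l ≤ c.len, stageStart d i l ≤ clusterStart d i + l * (M * E) := by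
    intro l
    induction l with
    | zero => intro _; rw [Trunc.stageStart_zero]; simp
    | succ l ih =>
      intro hl
      have := ih (by omega)
      push_cast
      linarith [(hstep l hl).2]
  refine ⟨fun k hk t ht => ?_, fun t ht => ?_⟩
  · have h1 := exp_le h (fun t ht s u hs hu => (hdec d r₂ β φ₀ hd t ht s u hs hu).1)
      (hjn d r₂ β φ₀ h ((le_max_left _ _).trans hj) p hp i) hk.le ht
    have h2 : clusterStart d i ≤ expNode d c.len i k := by
      rcases k with _ | k
      · exact le_rfl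
      · rw [node_succ d i (Nat.lt_of_succ_lt hk), ctrlStart_eq]
        linarith [stage_mono h i (Nat.zero_le k) (Nat.le_of_lt (Nat.lt_of_succ_lt hk)),
          Trunc.stageStart_zero (d := d) i]
    have h3 : expNode d c.len i (k + 1) ≤ stageStart d i c.len := by
      rw [node_succ d i hk, ctrlStart_eq]
      exact (hstep k hk).1.trans (stage_mono h i hk le_rfl)
    have h4 := hfrom c.len le_rfl
    have h5 : (c.len : ℝ) * (M * E) ≤ N * (M * E) :=
      mul_le_mul_of_nonneg_right (by exact_mod_cast (hN _).1) (by positivity)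
    have h6 := mul_le_mul_of_nonneg_left (show expNode d c.len i (k + 1) - expNode d c.len i k ≤
      N * (M * E) by linarith) hCa.le
    have h7 : 0 ≤ (Ca * M + Cd + 1) * E := by positivity
    refine h1.trans ?_
    linarith
  · obtain ⟨m, hm⟩ : ∃ m, c.len = m + 1 := ⟨c.len - 1, by have := len_pos c; omega⟩
    have hae : a c.len t = freeDecay d r₂ β (ctrlStart d i m) (clusterStart d (i + 1)) t := by
      simp only [a, clusterExp, if_pos ht, if_pos le_rfl, dif_neg (lt_irrefl c.len), add_zero,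
        node_last]
      rw [hm, node_succ d i (Nat.lt_succ_self m)]
    have hm' : m < c.len := by omega
    have g0 : (d.j₀ : ℝ) ^ 6 ≤ ctrlStart d i m := by
      rw [ctrlStart_eq]; linarith [stage_ge h i (l := m) hm'.le]
    have o1 : ctrlStart d i m ≤ stageStart d i c.len := by
      rw [ctrlStart_eq, hm]; exact (hstep m hm').1
    have hend : clusterStart d (i + 1) - stageStart d i c.len = τ := by
      rw [cluster_succ h, add_sub_cancel_left]
    have hτ : 0 ≤ τ := by positivity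
    have o2 : stageStart d i c.len ≤ clusterStart d (i + 1) := by linarith
    rw [hae, decay_add hd t g0 o1 o2]
    have e1 := abs_le.1 (hdec d r₂ β φ₀ hd t ht _ _ g0 o1).1
    have e2 := abs_le.1 ((hdec d r₂ β φ₀ hd t ht _ _ (g0.trans o1) o2).2
      fun v hv => basePar_long h hv)
    rw [hend] at e2
    have hdr : Cd * drift d (stageStart d i c.len) ≤ θ := by
      refine (mul_le_mul_of_nonneg_left
        (hjd d r₂ β φ₀ hd ((le_max_right _ _).trans hj) _ (g0.trans o1)) hCd).trans ?_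
      rw [mul_div_assoc', div_le_iff₀ (by positivity)]
      nlinarith
    have h1 := mul_le_mul_of_nonneg_left hdr hτ
    have h2 : stageStart d i c.len - ctrlStart d i m ≤ M * E := by
      rw [ctrlStart_eq, hm]; linarith [(hstep m hm').2]
    have h3 := mul_le_mul_of_nonneg_left h2 hCa.le
    have h4 : Cd ≤ Cd * E := le_mul_of_one_le_right hCd hE
    have h5 : 0 ≤ (Ca * (N * M) + 2) * E := by positivity
    rw [abs_le]
    constructor <;> linarith

end Vale.Agent.P225
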