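import Vale.Agent.P225.Assembly.Bounds.QCols
import Vale.Agent.P225.Assembly.Bounds.Err

/-!
P225, assembly: the estimates of one cluster, uniform in the parameters and in the
truncation.
-/

noncomputable section

namespace Vale.Agent.P225

open Matrix SU2 Metric Bds
open scoped ComplexOrder Matrix.Norms.L2Operator

attribute [local irreducible] band

theorem err_scalar {m N : ℕ} (hmN : m + 1 ≤ N) {w g j4 Cg Cs : ℝ} (hCg : 0 ≤ Cg) (hCs : 0 ≤ Cs)
    (hg : 0 ≤ g) (h : 2 * g + 3 * j4 ≤ 24 / 5 * w) :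
    Cg * Real.exp (-(24 / 5) * w) * (2 ^ (m + 1) * Real.exp (g + (m + 1)) * 3) ≤
      3 * (Cs + Cg * (2 * Real.exp 1) ^ N) * Real.exp (-3 * j4) := by
  have hpc : (2 : ℝ) ^ (m + 1) * Real.exp ((m : ℝ) + 1) ≤ (2 * Real.exp 1) ^ N := by
    rw [show ((m : ℝ) + 1) = ((m + 1 : ℕ) : ℝ) * 1 by push_cast; ring, Real.exp_nat_mul, ← mul_pow]
    exact pow_le_pow_right₀ (by linarith [Real.add_one_le_exp (1 : ℝ)]) hmN
  have hexp : Real.exp (-(24 / 5) * w) * Real.exp g ≤ Real.exp (-3 * j4) := by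
    rw [← Real.exp_add]; exact Real.exp_le_exp.2 (by linarith)
  calc Cg * Real.exp (-(24 / 5) * w) * (2 ^ (m + 1) * Real.exp (g + (m + 1)) * 3)
      = 3 * (Cg * (2 ^ (m + 1) * Real.exp ((m : ℝ) + 1))) *
          (Real.exp (-(24 / 5) * w) * Real.exp g) := by rw [Real.exp_add g]; ring
    _ ≤ 3 * (Cg * (2 * Real.exp 1) ^ N) * Real.exp (-3 * j4) := by gcongr
    _ ≤ _ := by
        have := Real.exp_nonneg (-3 * j4)
        nlinarith [mul_nonneg hCs this]

/-- One term of the residual sum against the band. -/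
theorem err_term_le {d : PathData} {r₂ β φ₀ : ℝ} {S : Schedule} {R : ℕ}
    (h : S.Adm R d r₂ β φ₀) {p : Param} (hp : InBox d p) (K i : ℕ) (z : ℕ → ℂ) {Cg Cs Ca B : ℝ}
    (hCg : 0 ≤ Cg) (hCs : 0 ≤ Cs) (hCa : 0 ≤ Ca) :
    let c := S.cd (d.j₀ + i)
    let a := clusterExp d r₂ β p c i
    let M := clusterMono d r₂ β p c i
    let e := Real.exp (-3 * ((d.j₀ + i : ℕ) : ℝ) ^ 4)
    (c.len : ℝ) ≤ B →
    (∀ k ≤ c.len, ∀ t ∈ band,
      |a k t| ≤ Ca * (expNode d c.len i (k + 1) - expNode d c.len i k) + 1) →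
    (∀ l < c.len, 2 * Ca * (ctrlEnd d i l - clusterStart d i) + 3 * ((d.j₀ + i : ℕ) : ℝ) ^ 4 ≤
      24 / 5 * (segEnd d i l - ctrlEnd d i l)) →
    (∀ l < c.len, ∀ t ∈ band, |freeDecay d r₂ β (ctrlStart d i l) (ctrlEnd d i l) t| ≤
      Ca * (ctrlEnd d i l - ctrlStart d i l)) →
    (∀ l < c.len, ‖(truncW d r₂ β p (K + 40) (segEnd d i l) -
        freeDiag d r₂ β (K + 40) (segEnd d i l)) * waitGain d r₂ β K i l‖ ≤
      Cg * Real.exp (-(24 / 5) * (segEnd d i l - ctrlEnd d i l))) →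
    ‖(truncW d r₂ β p (K + 40) (clusterStart d i) -
        freeDiag d r₂ β (K + 40) (clusterStart d i)) * bandLift K‖ ≤ Cs * e →
    (∀ l : Fin c.len, IsUnit ((c.stage l).spec.bandMat (z l)).det ∧
      ‖((c.stage l).spec.bandMat (z l))⁻¹‖ ≤ 2) →
    ‖clusterProd c.specs a z * M⁻¹‖ ≤ 3 →
    ∀ k < c.len,
    ‖truncBack d r₂ β p (K + 40) (clusterStart d i) (segStart d i k) *
        (segErr d r₂ β p K i k *
          (segProd (idealFun d r₂ β p c K i z) k c.len * (bandLift K * M⁻¹)))‖ ≤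
      3 * (Cs + Cg * (2 * Real.exp 1) ^ ⌈B⌉₊) * e := by
  intro c a M e hB ha hwait hctrl hg hs hz hY k hk
  have he : 0 < e := Real.exp_pos _
  have hlen : c.len ≤ ⌈B⌉₊ := by exact_mod_cast hB.trans (Nat.le_ceil B)
  have hl : k < (d.plan (d.j₀ + i)).length := by rw [h.plan_length]; exact hk
  obtain ⟨G, hG, hGe⟩ := segErr_factor h.good hp K i hl
  have hX : ‖(truncW d r₂ β p (K + 40) (segStart d i k) -
      freeDiag d r₂ β (K + 40) (segStart d i k)) *
      (segProd (idealFun d r₂ β p c K i z) k c.len * (bandLift K * M⁻¹))‖ ≤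
      3 * (Cs + Cg * (2 * Real.exp 1) ^ ⌈B⌉₊) * e := by
    have hpow : 0 ≤ Cg * (2 * Real.exp 1) ^ ⌈B⌉₊ := by positivity
    match k, hk, hl with
    | 0, _, _ =>
      rw [show segStart d i 0 = clusterStart d i from Trunc.stageStart_zero i, ← Matrix.mul_assoc
        (segProd _ _ _), idealProd_bandLift d r₂ β p c K i z (Nat.zero_le _),
        bandFun_prod h p i z, Matrix.mul_assoc (bandLift K), ← Matrix.mul_assoc]
      refine (norm_mul_rect _ _ hs hY).trans ?_
      nlinarith [mul_nonneg hpow he.le]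
    | m + 1, hk, hl =>
      have hm : m < c.len := (Nat.lt_succ_self m).trans hk
      have hseg : segStart d i (m + 1) = segEnd d i m := by
        rw [segEnd, if_pos hl]
      obtain ⟨X, hX, hXn⟩ := suffix_gain h p K i z (Ca := Ca) _ rfl ha hz m hk (hctrl m hm)
      rw [hX, hseg, ← Matrix.mul_assoc]
      refine (norm_mul_rect _ _ (hg m hm) (hXn.trans (mul_le_mul_of_nonneg_left hY
        (mul_nonneg (pow_nonneg zero_le_two _) (Real.exp_nonneg _))))).trans ?_
      have hord := seg_order h.good (show m < (d.plan (d.j₀ + i)).length by omega)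
      have hce : clusterStart d i ≤ ctrlEnd d i m :=
        ((Trunc.clusterStart_le_stageStart h.good
          (show m ≤ (d.plan (d.j₀ + i)).length by omega)).trans hord.2.1).trans hord.2.2.1
      exact err_scalar ((Nat.succ_le_of_lt hm).trans hlen) hCg hCs
        (mul_nonneg hCa (sub_nonneg.2 hce)) ((mul_assoc (2 : ℝ) _ _ ▸ hwait m hm))
  have hR : ‖truncBack d r₂ β p (K + 40) (clusterStart d i) (segStart d i k)‖ ≤ 1 :=
    truncBack_norm_le h.good hp _
      (Trunc.startTime_le h.good (Trunc.clusterStart_ge h.good i))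
      (Trunc.clusterStart_le_stageStart h.good hl.le)
  rw [hGe, Matrix.mul_assoc G]
  have hmain := norm_mul_rect _ _ hR (norm_mul_rect _ _ hG hX)
  rw [one_mul, one_mul] at hmain
  exact hmain

/-- The estimates: the band block is the identity plus the wanted correction, the rest is tiny. -/
theorem blocks_est (S : Schedule) : ∃ R₀ : ℕ, ∀ R ≥ R₀, ∃ (C : ℝ) (j₁ : ℕ), 0 < C ∧
    ∀ (d : PathData) (r₂ β φ₀ : ℝ), S.Adm R d r₂ β φ₀ → j₁ ≤ d.j₀ →
      ∀ (J K : ℕ) (x : S.Vars d.j₀ J), ‖x‖ ≤ 1 → ∀ i : Fin J,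
        let Kb := S.blocks r₂ β K x i
        let η := C * errSize (d.j₀ + i)
        IsUnit Kb.M ∧
          (∀ l < (S.cd (d.j₀ + i)).len, ‖S.slotVal r₂ β x i l‖ ≤ C * corrSize (d.j₀ + i)) ∧
          ‖Kb.a - (1 + corrSize (d.j₀ + i) • (((x i).2 : offSpace) : Matrix BPt BPt ℂ))‖ ≤ η ∧
          ‖Kb.b‖ * ‖Kb.M⁻¹‖ ≤ η ∧ ‖Kb.QS * Kb.M⁻¹‖ ≤ η ∧ ‖Kb.QQ‖ * ‖Kb.M⁻¹‖ ≤ η := by
  obtain ⟨Ca, hCa, R₀, hR⟩ := clusterExp_response S
  refine ⟨R₀, fun R hRR => ?_⟩
  obtain ⟨j1, hresp⟩ := hR R hRR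
  obtain ⟨Cg, j2, hCg, hgain⟩ := residual_gain S R
  obtain ⟨Cs, j3, hCs, hstart⟩ := residual_start S R
  obtain ⟨Cq, j4, hCq, hqcols⟩ := rawMap_qCols S R
  obtain ⟨r, hr, hrad⟩ := exists_slot_radius S
  obtain ⟨B, hB1, hB⟩ := S.exists_bound
  obtain ⟨j5, hj5⟩ := Filter.eventually_atTop.1 (tendsto_corrSize.eventually
    (eventually_le_nhds (show (0 : ℝ) < min (r / B) (1 / B ^ 2) by positivity)))
  set E := 3 * (Cs + Cg * (2 * Real.exp 1) ^ ⌈B⌉₊) with hE
  have hE0 : 0 ≤ E := by positivity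
  have hB0 : 0 < B := by linarith
  refine ⟨B + B ^ 4 + B * E + Cq, j1 + j2 + j3 + j4 + j5, by positivity, ?_⟩
  intro d r₂ β φ₀ h hj J K x hx i Kb η
  set j := d.j₀ + (i : ℕ) with hjdef
  set c := S.cd j with hc
  set p := S.parOf x
  set z := S.slotVal r₂ β x i
  set w : offSpace := corrSize j • (x i).2 with hw
  have hp : InBox d p := S.parOf_mem h hx
  obtain ⟨hA, hdwell, hwait, hctrl⟩ := hresp d r₂ β φ₀ h (by omega) p hp i
  obtain ⟨hslot, hprod⟩ := c.response _ _ hA hdwell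
  have hρ0 : 0 < corrSize j := Real.exp_pos _
  have hρ := hj5 j (by omega)
  have hwn : ‖(w : Matrix BPt BPt ℂ)‖ ≤ corrSize j := by
    have hx2 : ‖(x i).2‖ ≤ 1 := (norm_snd_le (x i)).trans ((norm_le_pi_norm x i).trans hx)
    rw [hw, Submodule.coe_smul, norm_smul, Real.norm_of_nonneg hρ0.le]
    exact mul_le_of_le_one_right hρ0.le hx2
  have hsmall : B ^ 2 * corrSize j ≤ 1 := by
    have := hρ.trans (min_le_right _ _)
    rwa [le_div_iff₀ (by positivity), mul_comm] at this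
  have hzb : ∀ l, ‖z l‖ ≤ B * corrSize j := fun l =>
    (hslot l w).trans (mul_le_mul (hB j).1 hwn (norm_nonneg _) hB0.le)
  have hzr : ∀ l : Fin c.len, IsUnit ((c.stage l).spec.bandMat (z l)).det ∧
      ‖((c.stage l).spec.bandMat (z l))⁻¹‖ ≤ 2 := fun l =>
    hrad j _ (List.mem_ofFn.2 ⟨l, rfl⟩) _ ((hzb l).trans (by
      have := hρ.trans (min_le_left _ _)
      rwa [le_div_iff₀ hB0, mul_comm] at this))
  have hK : Kb = clusterBlocks d r₂ β p c K i z := rfl
  obtain ⟨hMu, hq⟩ := hqcols d r₂ β φ₀ h (by omega) p hp K i z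
  set M := clusterMono d r₂ β p c i with hM
  have hY : clusterProd c.specs (clusterExp d r₂ β p c i) z * M⁻¹ =
      (List.ofFn fun e => 1 + ((c.parts e w : offSpace) : Matrix BPt BPt ℂ)).prod := by
    show clusterProd c.specs _ (fun k => c.slot _ k w) * M⁻¹ = _
    rw [show clusterProd c.specs (clusterExp d r₂ β p c i) (fun k => c.slot _ k w) =
      _ * M from hprod w, Matrix.mul_assoc, Matrix.mul_nonsing_inv _
        ((Matrix.isUnit_iff_isUnit_det M).1 hMu), Matrix.mul_one]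
  obtain ⟨hY1, hY2⟩ := response_first_order (hB j).1 (hB j).2.2 w hwn hsmall
  set e := Real.exp (-3 * ((j : ℕ) : ℝ) ^ 4)
  have hee : e ≤ errSize j := Real.exp_le_exp.2 (by nlinarith [pow_nonneg (Nat.cast_nonneg (α := ℝ) j) 4])
  set T := fun k => truncBack d r₂ β p (K + 40) (clusterStart d i) (segStart d i k) *
    (segErr d r₂ β p K i k *
      (segProd (idealFun d r₂ β p c K i z) k c.len * (bandLift K * M⁻¹))) with hT
  have hTk : ∀ k ∈ Finset.range c.len, ‖T k‖ ≤ E * e := fun k hk =>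
    (err_term_le h hp K i z hCg.le hCs.le hCa.le (hB j).2.1 hA hwait hctrl
      (fun l hl => hgain d r₂ β φ₀ h (by omega) p hp K i l hl)
      (hstart d r₂ β φ₀ h (by omega) p hp K i).1 hzr (hY ▸ hY2) k (Finset.mem_range.1 hk))
  have hsumT : ‖∑ k ∈ Finset.range c.len, T k‖ ≤ B * E * errSize j := by
    refine (norm_sum_le _ _).trans ((Finset.sum_le_sum hTk).trans ?_)
    rw [Finset.sum_const, Finset.card_range, nsmul_eq_mul, mul_assoc B]
    exact mul_le_mul (hB j).2.1 (mul_le_mul_of_nonneg_left hee hE0)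
      (mul_nonneg hE0 (Real.exp_nonneg _)) hB0.le
  have hP : segProd (idealFun d r₂ β p c K i z) 0 c.len * (bandLift K * M⁻¹) =
      bandLift K * (clusterProd c.specs (clusterExp d r₂ β p c i) z * M⁻¹) := by
    rw [← Matrix.mul_assoc, idealProd_bandLift d r₂ β p c K i z (Nat.zero_le _),
      show segProd (bandFun d r₂ β p c i z) 0 c.len = _ from bandFun_prod h p i z, Matrix.mul_assoc]
  have hraw : rawMap d r₂ β p c K i z * (bandLift K * M⁻¹) =
      bandLift K * (clusterProd c.specs (clusterExp d r₂ β p c i) z * M⁻¹) -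
        ∑ k ∈ Finset.range c.len, T k := by
    rw [rawMap, Matrix.sub_mul, hP, Matrix.sum_mul]
    exact congrArg _ (Finset.sum_congr rfl fun k _ => by simp only [hT, Matrix.mul_assoc])
  have hη : ∀ u : ℝ, u ≤ B ^ 4 + B * E + Cq → u * errSize j ≤ η := fun u hu =>
    mul_le_mul_of_nonneg_right (by linarith) (Real.exp_nonneg _)
  refine ⟨hMu, fun l _ => (hzb l).trans (mul_le_mul_of_nonneg_right ?_ hρ0.le), ?_, ?_, ?_, ?_⟩
  · nlinarith [mul_nonneg hB0.le hE0, pow_nonneg hB0.le 4]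
  · refine le_trans ?_ (hη (B ^ 4 + B * E) (by linarith))
    show ‖(bandLift K)ᴴ * rawMap d r₂ β p c K i z * bandLift K * M⁻¹ - _‖ ≤ _
    rw [Matrix.mul_assoc _ (bandLift K), Matrix.mul_assoc, hraw, Matrix.mul_sub,
      ← Matrix.mul_assoc (bandLift K)ᴴ, bandLift_isometry, Matrix.one_mul, hY, sub_right_comm,
      add_mul, ← corrSize_sq]
    refine (norm_sub_le _ _).trans (add_le_add ?_ ?_)
    · exact hY1
    · rw [corrSize_sq]
      exact (norm_mul_rect _ _ (bandLift_norm_le K).2 hsumT).trans_eq (one_mul _)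
  · refine le_trans ?_ (hη Cq (by nlinarith [mul_nonneg hB0.le hE0, pow_nonneg hB0.le 4]))
    refine le_trans (mul_le_mul_of_nonneg_right ?_ (norm_nonneg _)) hq
    show ‖(bandLift K)ᴴ * rawMap d r₂ β p c K i z * qLift K‖ ≤ _
    rw [Matrix.mul_assoc]
    exact (norm_mul_rect _ _ (bandLift_norm_le K).2 le_rfl).trans_eq (one_mul _)
  · refine le_trans ?_ (hη (B * E) (by nlinarith [pow_nonneg hB0.le 4]))
    show ‖(qLift K)ᴴ * rawMap d r₂ β p c K i z * bandLift K * M⁻¹‖ ≤ _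
    have hz0 : (qLift K)ᴴ * bandLift K = 0 := by
      have := congrArg Matrix.conjTranspose (bandLift_qLift K)
      rwa [Matrix.conjTranspose_mul, Matrix.conjTranspose_conjTranspose,
        Matrix.conjTranspose_zero] at this
    rw [Matrix.mul_assoc _ (bandLift K), Matrix.mul_assoc, hraw, Matrix.mul_sub,
      ← Matrix.mul_assoc (qLift K)ᴴ, hz0, Matrix.zero_mul, zero_sub, norm_neg]
    exact (norm_mul_rect _ _ (qLift_norm_le K).2 hsumT).trans_eq (one_mul _)
  · refine le_trans ?_ (hη Cq (by nlinarith [mul_nonneg hB0.le hE0, pow_nonneg hB0.le 4]))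
    refine le_trans (mul_le_mul_of_nonneg_right ?_ (norm_nonneg _)) hq
    show ‖(qLift K)ᴴ * rawMap d r₂ β p c K i z * qLift K‖ ≤ _
    rw [Matrix.mul_assoc]
    exact (norm_mul_rect _ _ (qLift_norm_le K).2 le_rfl).trans_eq (one_mul _)

end Vale.Agent.P225
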