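import Vale.Agent.P225.Assembly.Ideal
import Vale.Agent.P225.Assembly.Residual.Tail
import Vale.Agent.P225.Assembly.Residual.Dwell

/-!
P225, assembly: residuals against the decay of the free rates after their birth, and the decay of
the last segment on the points outside the band.
-/

noncomputable section

namespace Vale.Agent.P225

open Matrix SU2 Set Vale.Agent.P225.Trunc
open scoped ComplexOrder Matrix.Norms.L2Operator

variable (d : PathData) (r₂ β : ℝ)

/-- Band columns multiplied by the free growth from the end of the control to the segment's end. -/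
def waitGain (K i l : ℕ) : Matrix (PntK (K + 40)) BPt ℂ :=
  bandLift K * labDiag fun t => -freeDecay d r₂ β (ctrlEnd d i l) (segEnd d i l) t

namespace Residual

/-- The indicator of the band points. -/
def bandPts (K : ℕ) : Op (PntK K) :=
  diagonal fun x => (((if lab x.out ∈ band then 1 else 0 : ℝ)) : ℂ)

theorem norm_rdiag_le {n : Type*} [Fintype n] [DecidableEq n] (g : n → ℝ) {c : ℝ} (hc : 0 ≤ c)
    (h : ∀ x, |g x| ≤ c) : ‖(Matrix.diagonal fun x => (g x : ℂ) : Op n)‖ ≤ c := by
  rw [l2_opNorm_diagonal, pi_norm_le_iff_of_nonneg hc]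
  intro x
  rw [Complex.norm_real, Real.norm_eq_abs]
  exact h x

theorem norm_bandPts_le (K : ℕ) : ‖bandPts K‖ ≤ 1 :=
  norm_rdiag_le _ zero_le_one fun x => by split_ifs <;> simp

theorem bandPts_proj (G : Fin 3) (K : ℕ) : bandProj G K * bandPts K = bandPts K :=
  bandProj_mul fun x y hx => by
    by_cases h : x = y
    · subst h
      have hb : lab x.out ∉ band := fun hb => hx (by
        unfold bandBlocks
        exact Finset.mem_image_of_mem _ hb)
      simp [bandPts, hb]
    · simp [bandPts, h]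

theorem norm_one_submatrix_le {m n : Type*} [Fintype m] [Fintype n] [DecidableEq m]
    [DecidableEq n] (f : n → m) (hf : Function.Injective f) :
    ‖(1 : Matrix m m ℂ).submatrix id f‖ ≤ 1 := by
  have h := Matrix.l2_opNorm_conjTranspose_mul_self ((1 : Matrix m m ℂ).submatrix id f)
  have e : ((1 : Matrix m m ℂ).submatrix id f)ᴴ * (1 : Matrix m m ℂ).submatrix id f = 1 := by
    rw [Matrix.conjTranspose_submatrix, Matrix.conjTranspose_one,
      ← Matrix.submatrix_mul _ _ f id f Function.bijective_id, Matrix.one_mul,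
      Matrix.submatrix_one f hf]
  rw [e] at h
  have h1 : ‖(1 : Matrix n n ℂ)‖ ≤ 1 := by
    rw [← Matrix.diagonal_one, Matrix.l2_opNorm_diagonal, pi_norm_le_iff_of_nonneg zero_le_one]
    simp
  nlinarith [norm_nonneg ((1 : Matrix m m ℂ).submatrix id f)]

theorem bIdx_injective (K : ℕ) : Function.Injective (bIdx K) := by
  intro x y h
  apply Subtype.ext
  refine PntK.out_injective (Pnt.ext' (fun k => ?_) fun k => ?_)
  · exact congrArg (fun z => lab z.out k) h
  · exact congrArg (fun z => idx z.out k) h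

theorem norm_bandLift_le (K : ℕ) : ‖bandLift K‖ ≤ ‖adaptBasis‖ :=
  (Matrix.l2_opNorm_mul _ _).trans
    (mul_le_of_le_one_left (norm_nonneg _) (norm_one_submatrix_le _ (bIdx_injective K)))

/-- A diagonal in the labels passes through the embedding of the band. -/
theorem bandLift_labDiag (K : ℕ) (a : Lbl → ℝ) :
    bandLift K * labDiag a =
      (Matrix.diagonal fun x : PntK (K + 40) => ((Real.exp (-a (lab x.out)) : ℝ) : ℂ)) *
        (bandPts (K + 40) * bandLift K) := by
  have hlab : ∀ x : BPt, lab (bIdx K x).out = lab x.1.out := fun x => rfl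
  ext x j
  have e : ∀ x j, bandLift K x j = ∑ y, if x = bIdx K y then adaptBasis y j else 0 := by
    intro x j
    simp [bandLift, Matrix.mul_apply, Matrix.one_apply]
  rw [labDiag, mul_diagonal, Matrix.diagonal_mul, bandPts, Matrix.diagonal_mul, e,
    Finset.sum_mul, Finset.mul_sum, Finset.mul_sum]
  refine Finset.sum_congr rfl fun y _ => ?_
  split_ifs with h hb hb
  · subst h
    by_cases ha : adaptBasis y j = 0
    · simp [ha]
    · have hyj : y.1.1 = j.1.1 := by
        by_contra hne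
        exact ha (dif_neg hne)
      have : lab y.1.out = lab j.1.out := by
        funext k
        exact congrArg (fun z => ((z.1 k : ℕ))) hyj
      rw [hlab, this]
      push_cast
      ring
  · exact absurd (h ▸ hlab y ▸ y.2) hb
  · simp
  · simp

end Residual

open Residual

/-- The residual at the end of a segment, measured against the free growth since the control. -/
theorem residual_gain (S : Schedule) (R : ℕ) :
    ∃ (C : ℝ) (j₁ : ℕ), 0 < C ∧ ∀ (d : PathData) (r₂ β φ₀ : ℝ), S.Adm R d r₂ β φ₀ → j₁ ≤ d.j₀ →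
      ∀ p : Param, InBox d p → ∀ (K i : ℕ), ∀ l < (S.cd (d.j₀ + i)).len,
        ‖(truncW d r₂ β p (K + 40) (segEnd d i l) - freeDiag d r₂ β (K + 40) (segEnd d i l)) *
            waitGain d r₂ β K i l‖ ≤
          C * Real.exp (-(24 / 5) * (segEnd d i l - ctrlEnd d i l)) := by
  obtain ⟨Cb, _, j₂, hCb, -, hband⟩ := band_bounds S.period (S.plan R) S.box
  obtain ⟨Cn, _, j₃, hCn, -, hnear⟩ := truncW_near S.period (S.plan R) S.box
  refine ⟨(Cn + Cb) * (1 + Cb) * (‖adaptBasis‖ + 1), max j₂ j₃, by positivity, ?_⟩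
  intro d r₂ β φ₀ hA hj p hp K i l hl
  have hd := hA.good
  have hl' : l < (d.plan (d.j₀ + i)).length := by
    simpa [hA.plan_eq, Schedule.plan, ClusterData.stagePlan] using hl
  have hε0 := speed_pos (one_le_idx hd i)
  have hε1 := Trunc.speed_le_one (one_le_idx hd i)
  have hB := hband d r₂ β φ₀ hA.period_eq hA.plan_eq hA.box_eq ((le_max_left _ _).trans hj) hd p hp
    (K + 40) i l hl'
  have hD := (hnear d r₂ β φ₀ hA.period_eq hA.plan_eq hA.box_eq ((le_max_right _ _).trans hj) hd p
    hp (K + 40) i l hl').1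
  obtain ⟨Q, hQ, hsplit, hQa, hQM⟩ := exists_tail hd hp (K + 40) i hl'
  obtain ⟨hc0, hc, hcb⟩ := ctrlEnd_lt hd hl'
  obtain ⟨hV0, hV, hVp, -⟩ := segRef_spec hd hp (K + 40) i hl'
  obtain ⟨-, -, -, hg, hs⟩ := seg_times hd hl'
  have hres := fun X => residual_apply hd hp (K + 40) i hl' X
  set a := segStart d i l
  set c := ctrlEnd d i l
  set b := segEnd d i l
  set G := ((d.plan (d.j₀ + i))[l]).gauge
  set P := bandProj G (K + 40) with hP
  set Γ := (Matrix.diagonal fun x : PntK (K + 40) =>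
      ((Real.exp (- -freeDecay d r₂ β c b (lab x.out)) : ℝ) : ℂ)) * bandPts (K + 40) with hΓ
  have hwg : waitGain d r₂ β K i l = Γ * bandLift K := by
    rw [waitGain, bandLift_labDiag, ← Matrix.mul_assoc]
  have hfree : freeQ d r₂ β (K + 40) c b * Γ = bandPts (K + 40) := by
    rw [hΓ, freeQ, ← mul_assoc, diagonal_mul_diagonal]
    convert one_mul (bandPts (K + 40)) using 2
    rw [← diagonal_one]
    congr 1
    funext x
    rw [← Complex.ofReal_mul, ← Real.exp_add]
    simp
  have hPΓ : P * Γ = Γ := by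
    rw [hΓ, hP, ← mul_assoc, bandProj, (rdiag_commute _ _).eq, ← bandProj, mul_assoc, bandPts_proj]
  have hQΓ : ‖Q b * Γ‖ ≤ 1 + Cb := by
    refine (hQM Γ).trans (add_le_add ?_ ?_)
    · rw [hfree]; exact norm_bandPts_le _
    · rw [hfree, ← bandPts_proj G, ← mul_assoc _ P, ← norm_neg (_ * bandPts (K + 40)), ← neg_mul,
        ← neg_mul, neg_sub]
      refine le_trans (mul_le_of_le_one_left (norm_nonneg _) (by norm_num)) ?_
      refine (norm_mul_le _ _).trans ((mul_le_of_le_one_right (norm_nonneg _)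
        (norm_bandPts_le _)).trans ((hB c ⟨hc, hcb⟩).2.trans ?_))
      exact mul_le_of_le_one_right hCb.le hε1
  have hPQ : P * (Q b * Γ) = Q b * Γ := by
    rw [← mul_assoc, (back_commute ((riccati_cont hV).mono (Icc_subset_Icc_left hc)) hQ
      (fun t ht => bandProj_commute hd hp (K + 40) i hl' ⟨hc.trans ht.1, ht.2⟩) b
      (right_mem_Icc.2 hcb)).eq, mul_assoc, hPΓ]
  -- the jump
  obtain ⟨Q', hQ', hdiff⟩ := riccati_diff_mul_le (c := 49 / 10) (A := truncOp d p (K + 40))
    (ν := pathDamp d) (W := freeDiag d r₂ β (K + 40)) (V := segRef d r₂ β p (K + 40) i l) hcb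
    (fun t ht => damp_ge hd ((hg.trans hc).trans ht.1))
    (pathDamp_cont hd).continuousOn
    (freeDiag_riccati hd (hs.trans hc) fun t ht => seg_op_tail hd p (K + 40) hl' ht)
    (fun t ht => hV t ⟨hc.trans ht.1, ht.2⟩)
    (fun t ht => freeDiag_psd hd ((hs.trans hc).trans ht.1))
  have hQQ : Q' b = Q b := by
    rw [back_trans ((riccati_cont hV).mono (Icc_subset_Icc_left hc)) le_rfl hcb hQ' hQ b
      (right_mem_Icc.2 hcb), hQ'.1, one_mul]
  have hjump : ‖(segRef d r₂ β p (K + 40) i l b - freeDiag d r₂ β (K + 40) b) * Γ‖ ≤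
      Real.exp (-(24 / 5) * (b - c)) * (Cb * (1 + Cb)) := by
    rw [← norm_neg, ← neg_mul, neg_sub]
    refine (hdiff Γ).trans ?_
    refine mul_le_mul (Real.exp_le_exp.2 (by linarith)) ?_ (norm_nonneg _) (Real.exp_nonneg _)
    rw [hQQ, ← hPQ, ← mul_assoc _ P]
    exact (norm_mul_le _ _).trans (mul_le_mul ((hB c ⟨hc, hcb⟩).2.trans
      (mul_le_of_le_one_right hCb.le hε1)) hQΓ (norm_nonneg _) hCb.le)
  have hstart : Real.exp (-(49 / 10) * (b - a)) *
      ‖(truncW d r₂ β p (K + 40) a - freeDiag d r₂ β (K + 40) a) *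
        (segBack d r₂ β p (K + 40) i l b * Γ)‖ ≤
      Real.exp (-(24 / 5) * (b - c)) * (Cn * (1 + Cb)) := by
    refine mul_le_mul (Real.exp_le_exp.2 (by linarith)) ?_ (norm_nonneg _) (Real.exp_nonneg _)
    refine (norm_mul_le _ _).trans (mul_le_mul (hD.trans (mul_le_of_le_one_right hCn.le hε1)) ?_
      (norm_nonneg _) hCn.le)
    rw [hsplit, mul_assoc]
    exact (norm_mul_le _ _).trans ((mul_le_of_le_one_left (norm_nonneg _) hQa).trans hQΓ)
  rw [hwg, ← Matrix.mul_assoc]
  refine (Matrix.l2_opNorm_mul _ _).trans ?_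
  refine (mul_le_mul ((hres Γ).trans (add_le_add hstart hjump))
    ((norm_bandLift_le K).trans (le_add_of_nonneg_right zero_le_one)) (norm_nonneg _)
    (by positivity)).trans (le_of_eq ?_)
  ring

/-- The residual at the start of a cluster. -/
theorem residual_start (S : Schedule) (R : ℕ) :
    ∃ (C : ℝ) (j₁ : ℕ), 0 < C ∧ ∀ (d : PathData) (r₂ β φ₀ : ℝ), S.Adm R d r₂ β φ₀ → j₁ ≤ d.j₀ →
      ∀ p : Param, InBox d p → ∀ (K i : ℕ),
        ‖(truncW d r₂ β p (K + 40) (clusterStart d i) -
            freeDiag d r₂ β (K + 40) (clusterStart d i)) * bandLift K‖ ≤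
          C * Real.exp (-3 * ((d.j₀ + i : ℕ) : ℝ) ^ 4) ∧
        ∀ l < (S.cd (d.j₀ + i)).len, ‖segErr d r₂ β p K i l‖ ≤ C := by
  obtain ⟨C₁, j₂, hC₁, hgain⟩ := residual_gain S R
  obtain ⟨Cn, _, j₃, hCn, -, hnear⟩ := truncW_near S.period (S.plan R) S.box
  refine ⟨C₁ + Cn, max (max j₂ j₃) 16, by positivity, ?_⟩
  intro d r₂ β φ₀ hA hj p hp K i
  have hd := hA.good
  have hlen : ∀ k, (d.plan k).length = (S.cd k).len := fun k => by
    simp [hA.plan_eq, Schedule.plan, ClusterData.stagePlan]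
  refine ⟨?_, fun l hl => ?_⟩
  · rcases i with _ | i
    · rw [truncW_pre hd hp (K + 40) (startTime_le hd (clusterStart_ge hd 0)) le_rfl, sub_self,
        Matrix.zero_mul, norm_zero]
      positivity
    have hne : 0 < (d.plan (d.j₀ + i)).length := List.length_pos_iff.2 (hd.isPlan.nonempty _)
    set l := (d.plan (d.j₀ + i)).length - 1 with hldef
    have hlL : l < (d.plan (d.j₀ + i)).length := by omega
    have hend : segEnd d i l = clusterStart d (i + 1) := by rw [segEnd, if_neg (by omega)]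
    have h := hgain d r₂ β φ₀ hA (((le_max_left _ _).trans (le_max_left _ _)).trans hj) p hp K i l
      (by rw [← hlen]; omega)
    rw [hend] at h
    obtain ⟨hc0, -, hcb⟩ := ctrlEnd_lt hd hlL
    set F : Lbl → ℝ := fun t => freeDecay d r₂ β (ctrlEnd d i l) (clusterStart d (i + 1)) t
    have hsplit : bandLift K = waitGain d r₂ β K i l * labDiag F := by
      rw [waitGain, hend, Matrix.mul_assoc, labDiag, labDiag, diagonal_mul_diagonal]
      conv_lhs => rw [← Matrix.mul_one (bandLift K), ← diagonal_one]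
      congr 2
      funext x
      rw [← Complex.ofReal_mul, ← Real.exp_add]
      simp [F]
    have hF : ‖labDiag F‖ ≤ 1 := norm_rdiag_le _ zero_le_one fun x => by
      rw [abs_of_pos (Real.exp_pos _), Real.exp_le_one_iff, neg_nonpos]
      exact intervalIntegral.integral_nonneg (hend ▸ hcb) fun u hu =>
        freeRate_nonneg hd _ (hc0.le.trans hu.1)
    rw [hsplit, ← Matrix.mul_assoc]
    refine (Matrix.l2_opNorm_mul _ _).trans ((mul_le_of_le_one_right (norm_nonneg _) hF).trans
      (h.trans ?_))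
    refine mul_le_mul (le_add_of_nonneg_right hCn.le) (Real.exp_le_exp.2 ?_) (Real.exp_nonneg _)
      (by positivity)
    have hdwell : ((d.j₀ + i : ℕ) : ℝ) ^ 5 ≤ clusterStart d (i + 1) - ctrlEnd d i l := by
      have h2 := Trunc.stageStart_succ hlL
      have h3 : ctrlEnd d i l ≤ stageStart d i (l + 1) := by
        rw [ctrlEnd_eq hlL, h2]
        refine add_le_add le_rfl (div_le_div_of_nonneg_right ?_ (speed_pos (one_le_idx hd i)).le)
        simp only [StagePlan.dur]
        linarith [Nat.cast_nonneg (α := ℝ) ((d.plan (d.j₀ + i))[l]).wait,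
          Nat.cast_nonneg (α := ℝ) ((d.plan (d.j₀ + i))[l]).dwell]
      rw [show l + 1 = (d.plan (d.j₀ + i)).length by omega] at h3
      rw [clusterStart_succ_eq]
      push_cast
      linarith
    have hj16 : (16 : ℝ) ≤ ((d.j₀ + i : ℕ) : ℝ) := by
      have : 16 ≤ d.j₀ + i := ((le_max_right _ _).trans hj).trans (Nat.le_add_right _ _)
      exact_mod_cast this
    have h4 : (((d.j₀ + (i + 1) : ℕ) : ℝ)) ^ 4 ≤ 16 * ((d.j₀ + i : ℕ) : ℝ) ^ 4 := by
      rw [show d.j₀ + (i + 1) = d.j₀ + i + 1 by omega,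
        show (16 : ℝ) * ((d.j₀ + i : ℕ) : ℝ) ^ 4 = (2 * ((d.j₀ + i : ℕ) : ℝ)) ^ 4 by ring]
      push_cast at hj16 ⊢
      exact pow_le_pow_left₀ (by positivity) (by linarith) 4
    nlinarith [mul_le_mul_of_nonneg_right hj16
      (show (0 : ℝ) ≤ ((d.j₀ + i : ℕ) : ℝ) ^ 4 by positivity)]
  · have hl' : l < (d.plan (d.j₀ + i)).length := by rwa [hlen]
    refine (norm_segErr_le hd hp K i hl').trans ?_
    refine (mul_le_of_le_one_left (norm_nonneg _) (by norm_num)).trans ?_
    refine ((hnear d r₂ β φ₀ hA.period_eq hA.plan_eq hA.box_eq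
      (((le_max_right _ _).trans (le_max_left _ _)).trans hj) hd p hp (K + 40) i l hl').1).trans ?_
    exact (mul_le_of_le_one_right hCn.le (Trunc.speed_le_one (one_le_idx hd i))).trans
      (le_add_of_nonneg_left hC₁.le)

/-- Outside the band the last segment decays strictly faster than every band point. -/
theorem segBack_last_le (S : Schedule) (R : ℕ) :
    ∃ (C γ : ℝ) (j₁ : ℕ), 0 < C ∧ 0 < γ ∧ ∀ (d : PathData) (r₂ β φ₀ : ℝ),
      S.Adm R d r₂ β φ₀ → j₁ ≤ d.j₀ → ∀ p : Param, InBox d p → ∀ (K i : ℕ),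
      let l := (S.cd (d.j₀ + i)).len - 1
      let τ := ((d.j₀ + i : ℕ) : ℝ) ^ 5
      ∀ t ∈ band, ‖segBack d r₂ β p (K + 40) i l (segEnd d i l) * qLift K‖ ≤
        Real.exp (C * ((d.j₀ + i : ℕ) : ℝ) ^ 4 - (expo (27 / 4) t + γ) * τ) := by
  obtain ⟨K₁, hK₁, hsand⟩ := seg_sandwich S.period (S.plan R) S.box
  obtain ⟨Cw, hCw, hrate⟩ := freeRate_weight
  obtain ⟨γ, j₂, hγ, hdwell⟩ := exists_dwell_gap
  obtain ⟨j₃, hj₃⟩ := exists_speed_le (1 / (2 * K₁)) (by positivity)
  refine ⟨Real.log (1 + 2 * Cw) + 1, γ, max j₂ j₃, by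
    have := Real.log_nonneg (show (1 : ℝ) ≤ 1 + 2 * Cw by linarith)
    linarith, hγ, ?_⟩
  intro d r₂ β φ₀ hA hj p hp K i l τ t ht
  have hd := hA.good
  have hlen : (d.plan (d.j₀ + i)).length = (S.cd (d.j₀ + i)).len := by
    simp [hA.plan_eq, Schedule.plan, ClusterData.stagePlan]
  have hne : 0 < (d.plan (d.j₀ + i)).length := List.length_pos_iff.2 (hd.isPlan.nonempty _)
  have hl : l < (d.plan (d.j₀ + i)).length := by simp only [l]; omega
  have hlast : l + 1 = (d.plan (d.j₀ + i)).length := by simp only [l]; omega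
  set N := K + 40
  set G := ((d.plan (d.j₀ + i))[l]).gauge
  set u : PntK N → ℝ := fun x => blkWeight G x with hu
  have hgap := hdwell d r₂ β φ₀ hd ((le_max_left _ _).trans hj) i l hlast t ht
  obtain ⟨Q, hQ, hsplit, hQa, hQM⟩ := exists_tail hd hp N i hl
  obtain ⟨-, hc, hcb⟩ := ctrlEnd_lt hd hl
  obtain ⟨hc', -, -, hg, hs⟩ := seg_times hd hl
  have hk : K₁ * speed (d.j₀ + i) ≤ 1 / 2 := by
    have := hj₃ (d.j₀ + i) (one_le_idx hd i)
      (((le_max_right _ _).trans hj).trans (Nat.le_add_right _ _))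
    rw [le_div_iff₀ (by positivity)] at this
    linarith
  obtain ⟨s1, s2, s3⟩ := hsand d r₂ β φ₀ hA.period_eq hA.plan_eq hA.box_eq hd p hp N i l hl hk
    (ctrlEnd d i l) ⟨hc, hcb⟩
  set c := ctrlEnd d i l
  set b := segEnd d i l
  set e := Real.exp (-((expo (27 / 4) t + γ) * τ)) with he
  set w : PntK N → ℝ := fun x => if lab x.out ∉ band ∧ lab x.out ≠ 0 then
    Real.exp (-freeDecay d r₂ β c b (lab x.out)) else 0 with hw
  set P₀ : Op (PntK N) := Matrix.diagonal fun x =>
    (((if lab x.out ∉ band ∧ lab x.out ≠ 0 then 1 else 0 : ℝ)) : ℂ) with hP₀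
  have hqP : qLift K = P₀ * qLift K := by
    ext x y
    rw [hP₀, Matrix.diagonal_mul]
    by_cases h : x = y.1
    · subst h; simp [y.2]
    · simp [qLift, h]
  have hwb : ∀ x, 0 ≤ w x ∧ Real.exp (u x) * w x ≤ e := by
    intro x
    refine ⟨by simp only [hw]; split_ifs <;> positivity, ?_⟩
    simp only [hw]
    split_ifs with h
    · rw [he, ← Real.exp_add, Real.exp_le_exp]
      have h1 := hgap (lab x.out) (lab_ok x) h.2 h.1
      have h2 := (blkWeight_bounds G x).1
      simp only [hu, τ] at *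
      linarith
    · rw [mul_zero]; exact (Real.exp_pos _).le
  have hfree : freeQ d r₂ β N c b * P₀ = Matrix.diagonal fun x => (w x : ℂ) := by
    rw [hP₀, freeQ, rdiag_mul]
    congr 1
    funext x
    simp only [hw, mul_ite, mul_one, mul_zero]
  have hwe : ∀ x, |w x| ≤ e := fun x => by
    rw [abs_of_nonneg (hwb x).1]
    exact (le_mul_of_one_le_left (hwb x).1 (Real.one_le_exp (blkWeight_nonneg G x))).trans (hwb x).2
  have hJ : ‖(segRef d r₂ β p N i l c - freeDiag d r₂ β N c) * wgt (fun x => -u x)‖ ≤ 2 * Cw := by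
    obtain ⟨-, -, hVp, -⟩ := segRef_spec hd hp N i hl
    have hF : ((2 * Cw) • (Matrix.diagonal fun x => (u x : ℂ) : Op (PntK N)) -
        freeDiag d r₂ β N c).PosSemidef := by
      rw [rdiag_smul, freeDiag, rdiag_sub]
      exact rdiag_posSemidef fun x => by
        have := (hrate d r₂ β φ₀ hd c (hg.trans hc') G N x).2
        linarith
    have hk0 : 0 ≤ K₁ * speed (d.j₀ + i) := mul_nonneg hK₁.le (speed_pos (one_le_idx hd i)).le
    have hkF := posSemidef_real_smul hF hk0
    have hu2 : ((2 * Cw * (1 - K₁ * speed (d.j₀ + i))) •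
        (Matrix.diagonal fun x => (u x : ℂ) : Op (PntK N))).PosSemidef := by
      rw [rdiag_smul]
      exact rdiag_posSemidef fun x =>
        mul_nonneg (mul_nonneg (by positivity) (by linarith)) (blkWeight_nonneg G x)
    refine norm_mul_wgt_neg_le ((hVp c ⟨hc, hcb⟩).isHermitian.sub
      (freeDiag_psd hd (hs.trans hc)).isHermitian) (fun x => blkWeight_nonneg G x) (by positivity)
      (s3.sub_right (rdiag_commute _ _)) ?_ ?_
    · have := (s1.add hkF).add hu2
      convert this using 1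
      module
    · have := (s2.add hkF).add hu2
      convert this using 1
      module
  have hQP : ‖Q b * P₀‖ ≤ e + 2 * Cw * e := by
    refine (hQM P₀).trans (add_le_add ?_ ?_)
    · rw [hfree]; exact norm_rdiag_le _ (Real.exp_pos _).le hwe
    · rw [hfree, show (Matrix.diagonal fun x => (w x : ℂ) : Op (PntK N)) =
          wgt (fun x => -u x) * Matrix.diagonal (fun x => ((Real.exp (u x) * w x : ℝ) : ℂ)) by
        rw [wgt, rdiag_mul]
        congr 1
        funext x
        rw [← mul_assoc, ← Real.exp_add, neg_add_cancel, Real.exp_zero, one_mul],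
        ← mul_assoc (segRef d r₂ β p N i l c - freeDiag d r₂ β N c)]
      refine (mul_le_of_le_one_left (norm_nonneg _) (by norm_num)).trans ((norm_mul_le _ _).trans
        (mul_le_mul hJ (norm_rdiag_le _ (Real.exp_pos _).le fun x => ?_) (norm_nonneg _)
          (by positivity)))
      rw [abs_of_nonneg (mul_nonneg (Real.exp_pos _).le (hwb x).1)]
      exact (hwb x).2
  rw [hqP, ← Matrix.mul_assoc, hsplit, mul_assoc]
  refine (Matrix.l2_opNorm_mul _ _).trans ((mul_le_of_le_one_right (norm_nonneg _)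
    (norm_one_submatrix_le _ Subtype.val_injective)).trans ?_)
  refine ((norm_mul_le _ _).trans ((mul_le_of_le_one_left (norm_nonneg _) hQa).trans hQP)).trans ?_
  have hj1 : (1 : ℝ) ≤ ((d.j₀ + i : ℕ) : ℝ) ^ 4 :=
    one_le_pow₀ (by exact_mod_cast one_le_idx hd i)
  rw [show e + 2 * Cw * e = Real.exp (Real.log (1 + 2 * Cw)) * e by
    rw [Real.exp_log (by linarith)]; ring, he, ← Real.exp_add, Real.exp_le_exp]
  have := Real.log_nonneg (show (1 : ℝ) ≤ 1 + 2 * Cw by linarith)
  nlinarith

end Vale.Agent.P225
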