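import Vale.Agent.P225.Assembly.Continuity.Blocks

/-!
P225, assembly: continuity of the blocks in the variables.
-/

noncomputable section

namespace Vale.Agent.P225

open Matrix SU2 Metric
open scoped ComplexOrder Matrix.Norms.L2Operator

/-- Slot values are continuous: linear in the vector, continuous in the exponents. -/
theorem BlockCont.continuous_slot (c : ClusterData) {X : Type*} [TopologicalSpace X]
    {a : X → ℕ → Lbl → ℝ} {v : X → offSpace} (ha : Continuous a) (hv : Continuous v) (l : ℕ) :
    Continuous fun x => c.slot (a x) l (v x) := by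
  set b := Module.finBasis ℝ offSpace
  have h : ∀ x, c.slot (a x) l (v x) = ∑ j, b.repr (v x) j • c.slot (a x) l (b j) := fun x => by
    conv_lhs => rw [← b.sum_repr (v x), map_sum]
    simp only [map_smul]
  simp only [h]
  exact continuous_finsetSum _ fun j _ =>
    ((b.coord j).continuous_of_finiteDimensional.comp hv).smul ((c.slot_cont l (b j)).comp ha)

/-- Continuity in all variables. -/
theorem blocks_continuous (S : Schedule) (R : ℕ) :
    ∃ j₁ : ℕ, ∀ (d : PathData) (r₂ β φ₀ : ℝ), S.Adm R d r₂ β φ₀ → j₁ ≤ d.j₀ →
      ∀ (J K : ℕ) (i : Fin J),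
        let B : Set (S.Vars d.j₀ J) := closedBall 0 1
        ContinuousOn (fun x => (S.blocks r₂ β K x i).M⁻¹) B ∧
        ContinuousOn (fun x => (S.blocks r₂ β K x i).a) B ∧
        ContinuousOn (fun x => (S.blocks r₂ β K x i).b) B ∧
        ContinuousOn (fun x => (S.blocks r₂ β K x i).QS) B ∧
        ContinuousOn (fun x => (S.blocks r₂ β K x i).QQ) B ∧
        ∀ l : Fin (S.cd (d.j₀ + i)).len,
          ContinuousOn (fun x => stageNorm d r₂ β (S.parOf x)
            ((S.cd (d.j₀ + i)).stage l).spec.gauge i l) B ∧
          ContinuousOn (fun x => S.slotVal r₂ β x i l) B := by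
  refine ⟨0, fun d r₂ β φ₀ h _ J K i => ?_⟩
  intro B
  simp only [continuousOn_iff_continuous_domRestrict]
  have hd := h.good
  set p : B → Param := fun x => S.parOf x.1
  have hf : IsParFamily d J p :=
    { box := fun x => S.parOf_mem h (mem_closedBall_zero_iff.1 x.2)
      cont := fun i l k => (S.parOf_continuous i l k).comp continuous_subtype_val
      tail := fun x y i' hi => by
        funext l k
        simp only [p, Schedule.parOf, dif_neg (not_lt.2 hi)] }
  have hplan : d.plan (d.j₀ + i) = (S.cd (d.j₀ + i)).stagePlan R := by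
    rw [h.plan_eq]
    rfl
  have hv : Continuous fun x : B => corrSize (d.j₀ + i) • (x.1 i).2 :=
    (continuous_snd.comp ((continuous_apply i).comp continuous_subtype_val)).const_smul
      (corrSize (d.j₀ + i))
  have hz : ∀ l, Continuous fun x : B => S.slotVal r₂ β x.1 i l := fun l =>
    BlockCont.continuous_slot (S.cd (d.j₀ + i)) (BlockCont.continuous_clusterExp hd hf hplan) hv l
  have hM := BlockCont.continuous_clusterMono_inv hd hf hplan
  have hraw := BlockCont.continuous_rawMap hd hf hplan K hz
  have hcut : ∀ {m n : Type} (A : Matrix m (PntK (K + 40)) ℂ) (C : Matrix (PntK (K + 40)) n ℂ),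
      Continuous fun x : B =>
        A * rawMap d r₂ β (p x) (S.cd (d.j₀ + i)) K i (S.slotVal r₂ β x.1 i) * C := fun A C =>
    (continuous_const.matrix_mul hraw).matrix_mul continuous_const
  refine ⟨hM, (hcut _ _).matrix_mul hM, hcut _ _, hcut _ _, hcut _ _, fun l => ⟨?_, hz l⟩⟩
  obtain ⟨hl, hG⟩ := BlockCont.plan_gauge hplan l.isLt
  exact (ParamCont.continuous_stage hd hf i hl hG).1

end Vale.Agent.P225
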