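import Vale.Agent.P225.Assembly.Ideal
import Vale.Agent.P225.Stage.Real
import Vale.Agent.P225.Assembly.Real.Ops

/-!
P225, assembly: everything respects the real structure and the parity classes.
-/

noncomputable section

namespace Vale.Agent.P225

open Matrix SU2
open scoped ComplexOrder Matrix.Norms.L2Operator

/-- Entries only between points of one parity. -/
def IsParBand (M : Matrix BPt BPt ℂ) : Prop :=
  ∀ x y, parity (uOf x).lbl ≠ parity (uOf y).lbl → M x y = 0

/-- Columns outside the band fixed by the real structure and respecting parity. -/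
def IsRealCol {K : ℕ} (q : Matrix (QPt (K + 40)) BPt ℂ) : Prop :=
  (thetaMat (K + 40)).submatrix (fun x : QPt (K + 40) => x.1) (fun x : QPt (K + 40) => x.1) *
      q.map star = q * bandTheta ∧
    ∀ x y, parity (lab x.1.out) ≠ parity (uOf y).lbl → q x y = 0

/-- A real parity preserving band matrix without its sibling part is a correction. -/
theorem sub_sibPart_mem_offSpace {M : Matrix BPt BPt ℂ} (h : IsRealBand M) (hp : IsParBand M) :
    M - sibPart uOf M ∈ offSpace := by
  have hr : Real'.RespB M := ⟨h, hp⟩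
  have hs : Real'.RespB (sibPart uOf M) :=
    hr.sib fun x y hxy => Real'.bandTheta_uOf hxy
  refine Submodule.subset_span ⟨(hr.sub hs).1, fun x y hxy => ?_⟩
  rcases hxy with hxy | hxy
  · simp [sibPart, hxy]
  · exact (hr.sub hs).2 x y hxy

theorem offSpace_sibPart {M : Matrix BPt BPt ℂ} (h : M ∈ offSpace) : sibPart uOf M = 0 := by
  induction h using Submodule.span_induction with
  | mem x hx =>
    ext s t
    by_cases hst : uOf s = uOf t
    · simp [sibPart, hst, hx.2 s t (Or.inl hst)]
    · simp [sibPart, hst]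
  | zero =>
    ext s t
    simp [sibPart]
  | add x y _ _ hx hy => rw [sibPart_add, hx, hy, add_zero]
  | smul a x _ hx =>
    ext s t
    have := congrFun (congrFun hx s) t
    simp only [sibPart, Matrix.zero_apply] at this ⊢
    split_ifs at this ⊢ with hst
    · simp [Matrix.smul_apply, this]
    · rfl

variable {d : PathData} {r₂ β φ₀ : ℝ}

/-- The normalised top rows are real, and so are the columns carried backwards. -/
theorem blocks_real {S : Schedule} {R : ℕ} (h : S.Adm R d r₂ β φ₀) {p : Param}
    (hp : InBox d p) (K i : ℕ) (z : ℕ → ℂ)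
    (hM : IsUnit (clusterMono d r₂ β p (S.cd (d.j₀ + i)) i))
    {q : Matrix (QPt (K + 40)) BPt ℂ} (hq : IsRealCol q) :
    let Kb := clusterBlocks d r₂ β p (S.cd (d.j₀ + i)) K i z
    IsRealBand (Kb.top q) ∧ IsParBand (Kb.top q) ∧
      (IsUnit (sibPart uOf (Kb.top q)) → IsRealCol (Kb.qIn uOf q)) := by
  intro Kb
  have hq' : Real'.Resp (Real'.thetaOff K) bandTheta Real'.parOff Real'.parBand q := hq
  have hraw := Real'.respK_rawMap (K := K) h hp i z
  have hMi : Real'.RespB Kb.M⁻¹ :=
    (Real'.respB_clusterMono p _ i).inv ((Matrix.isUnit_iff_isUnit_det _).1 hM)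
  have hL := Real'.bandLift_resp K
  have hL' := Real'.bandLift_adjoint_resp K
  have hQ := Real'.qLift_resp K
  have hQ' := Real'.qLift_adjoint_resp K
  have htop : Real'.RespB (Kb.top q) :=
    (((hL'.mul hraw).mul hL).mul hMi).add ((((hL'.mul hraw).mul hQ).mul hq').mul hMi)
  refine ⟨htop.1, htop.2, fun hu => ?_⟩
  have hS : Real'.RespB (sibPart uOf (Kb.top q))⁻¹ :=
    (htop.sib fun x y hxy => Real'.bandTheta_uOf hxy).inv ((Matrix.isUnit_iff_isUnit_det _).1 hu)
  have hin := ((((hQ'.mul hraw).mul hL).add (((hQ'.mul hraw).mul hQ).mul hq')).mul hMi).mul hS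
  exact ⟨hin.1, hin.2⟩

end Vale.Agent.P225
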