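import Vale.Agent.P225.Assembly.Bounds
import Vale.Agent.P225.Assembly.Continuity
import Vale.Agent.P225.Assembly.Real
import Vale.Agent.P225.Assembly.Chain.Lift

/-!
P225, assembly: all clusters up to `J` are corrected at once.

The variables of a cluster are moved by the defect of every stage against its target and by the
part of the normalised top rows outside the sibling blocks. At a fixed point the stages hit their
targets, so `rawMap` is the backward map, and the top rows are sibling blocks times the monomial.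
-/

noncomputable section

namespace Vale.Agent.P225

open Matrix SU2 Metric Filter
open scoped ComplexOrder Matrix.Norms.L2Operator Topology

attribute [local irreducible] band

/-- The columns `[1; q]`. -/
def colLift (K : ℕ) (q : Matrix (QPt (K + 40)) BPt ℂ) : Matrix (PntK (K + 40)) BPt ℂ :=
  bandLift K + qLift K * q

namespace ChainAux

lemma colLift_row_zero {K : ℕ} (q : Matrix (QPt (K + 40)) BPt ℂ) {x : PntK (K + 40)}
    (hx : lab x.out = 0) (b : BPt) : colLift K q x b = 0 := by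
  rw [colLift, Matrix.add_apply, bandLift_row_zero hx, Matrix.mul_apply, zero_add]
  exact Finset.sum_eq_zero fun z _ => mul_eq_zero_of_left (qLift_row_zero hx z) _

lemma sibPart_smul' (r : ℝ) (M : Matrix BPt BPt ℂ) :
    sibPart uOf (r • M) = r • sibPart uOf M := by
  ext s t
  simp only [sibPart, Matrix.smul_apply]
  split_ifs <;> simp

lemma sibPart_one' : sibPart uOf (1 : Matrix BPt BPt ℂ) = 1 := by
  ext s t
  by_cases hst : s = t
  · subst hst; simp [sibPart]
  · simp [sibPart, Matrix.one_apply_ne hst]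

/-- The sibling part as a linear map. -/
def sibLin : Matrix BPt BPt ℂ →ₗ[ℝ] Matrix BPt BPt ℂ where
  toFun := sibPart uOf
  map_add' := sibPart_add uOf
  map_smul' r M := sibPart_smul' r M

lemma sibPart_sub' (M N : Matrix BPt BPt ℂ) :
    sibPart uOf (M - N) = sibPart uOf M - sibPart uOf N := sibLin.map_sub M N

/-- A projection onto the corrections which kills the sibling blocks. -/
lemma exists_offProj : ∃ P : Matrix BPt BPt ℂ →L[ℝ] offSpace,
    (∀ v : offSpace, P (v : Matrix BPt BPt ℂ) = v) ∧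
    ∀ M : Matrix BPt BPt ℂ, IsRealBand M → IsParBand M → P M = 0 → M = sibPart uOf M := by
  obtain ⟨g, hg⟩ := LinearMap.exists_leftInverse_of_injective offSpace.subtype
    (Submodule.ker_subtype _)
  have hgv : ∀ v : offSpace, g (v : Matrix BPt BPt ℂ) = v := fun v =>
    LinearMap.congr_fun hg v
  set L := g.comp (LinearMap.id - sibLin) with hL
  have hLv : ∀ v : offSpace, L (v : Matrix BPt BPt ℂ) = v := fun v => by
    have h0 : sibLin (v : Matrix BPt BPt ℂ) = 0 := offSpace_sibPart v.2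
    simp [hL, h0, hgv]
  refine ⟨LinearMap.toContinuousLinearMap L, hLv, fun M h hp h0 => ?_⟩
  have h1 : g (M - sibPart uOf M) = 0 := h0
  have hmem := sub_sibPart_mem_offSpace h hp
  have h2 : (⟨M - sibPart uOf M, hmem⟩ : offSpace) = 0 := (hgv _).symm.trans h1
  exact sub_eq_zero.1 (congrArg Subtype.val h2)

lemma isRealBand_sub_one {M : Matrix BPt BPt ℂ} (h : IsRealBand M) : IsRealBand (M - 1) := by
  have e : (M - 1).map star = M.map star - 1 := by
    ext i j
    by_cases hij : i = j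
    · subst hij; simp
    · simp [Matrix.one_apply_ne hij]
  rw [IsRealBand, e, Matrix.mul_sub, Matrix.sub_mul, h, mul_one, one_mul]

lemma isParBand_sub_one {M : Matrix BPt BPt ℂ} (h : IsParBand M) : IsParBand (M - 1) :=
  fun x y hxy => by
    have hne : x ≠ y := fun e => hxy (e ▸ rfl)
    rw [Matrix.sub_apply, h x y hxy, Matrix.one_apply_ne hne, sub_zero]

lemma isRealCol_zero {K : ℕ} : IsRealCol (0 : Matrix (QPt (K + 40)) BPt ℂ) := by
  refine ⟨?_, fun x y _ => rfl⟩
  rw [Matrix.map_zero _ (star_zero ℂ), Matrix.mul_zero, Matrix.zero_mul]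

/-- The slot directions of a stage, as a continuous map. -/
def slotDir (st : StageData) : ℂ →L[ℝ] BlkAlg (bandBlocks st.spec.gauge) :=
  LinearMap.toContinuousLinearMap st.spec.N

/-- All constants of one cluster in one number. -/
def clusterConst (c : ClusterData) : ℝ :=
  ∑ l : Fin c.len, ((c.stage l).tol⁻¹ + ‖slotDir (c.stage l)‖)

lemma clusterConst_nonneg (c : ClusterData) : 0 ≤ clusterConst c :=
  Finset.sum_nonneg fun l _ => add_nonneg (inv_nonneg.2 (c.stage l).tol_pos.le) (norm_nonneg _)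

/-- A bound for the constants of all stages of a schedule. -/
lemma exists_stage_const (S : Schedule) : ∃ M : ℝ, 1 ≤ M ∧ ∀ j (l : Fin (S.cd j).len),
    M⁻¹ ≤ ((S.cd j).stage l).tol ∧ ‖slotDir ((S.cd j).stage l)‖ ≤ M := by
  refine ⟨1 + ∑ j ∈ Finset.range S.period, clusterConst (S.cd j),
    le_add_of_nonneg_right (Finset.sum_nonneg fun j _ => clusterConst_nonneg _), fun j l => ?_⟩
  set M := 1 + ∑ j ∈ Finset.range S.period, clusterConst (S.cd j)
  have hj : clusterConst (S.cd j) ≤ M := by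
    rw [← Function.Periodic.map_mod_nat S.periodic j]
    refine le_trans ?_ (le_add_of_nonneg_left zero_le_one)
    exact Finset.single_le_sum (f := fun j => clusterConst (S.cd j))
      (fun j _ => clusterConst_nonneg _) (Finset.mem_range.2 (Nat.mod_lt _ S.period_pos))
  have hl : ((S.cd j).stage l).tol⁻¹ + ‖slotDir ((S.cd j).stage l)‖ ≤ clusterConst (S.cd j) :=
    Finset.single_le_sum (f := fun l => ((S.cd j).stage l).tol⁻¹ + ‖slotDir ((S.cd j).stage l)‖)
      (fun l _ => add_nonneg (inv_nonneg.2 ((S.cd j).stage l).tol_pos.le) (norm_nonneg _))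
      (Finset.mem_univ l)
  have ht := ((S.cd j).stage l).tol_pos
  have h1 : ((S.cd j).stage l).tol⁻¹ ≤ M := by
    linarith [norm_nonneg (slotDir ((S.cd j).stage l))]
  exact ⟨(inv_le_comm₀ ht (lt_of_lt_of_le (inv_pos.2 ht) h1)).1 h1,
    by linarith [inv_nonneg.2 ht.le]⟩

lemma tendsto_corrSize : Tendsto corrSize atTop (𝓝 0) :=
  Real.tendsto_exp_atBot.comp (tendsto_neg_atTop_atBot.comp
    ((tendsto_pow_atTop (by norm_num)).comp tendsto_natCast_atTop_atTop))

lemma errSize_eq (j : ℕ) : errSize j = corrSize j * corrSize j := by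
  rw [errSize, corrSize, ← Real.exp_add]
  congr 1
  ring

variable {d : PathData} {r₂ β φ₀ : ℝ}

/-- The stages of the path are near their words, in terms of the schedule. -/
lemma stage_near {S : Schedule} {R : ℕ} {δ : ℝ} (h : S.Adm R d r₂ β φ₀)
    (hnear : ∀ p : Param, InBox d p → ∀ (i l : ℕ) (hl : l < (d.plan (d.j₀ + i)).length),
      let σ := (d.plan (d.j₀ + i))[l]
      IsTarget (stageNorm d r₂ β p σ.gauge i l) ∧
        ‖stageNorm d r₂ β p σ.gauge i l -
          ctrlWord (bandBlocks σ.gauge) bandWeight σ.letter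
            (fun k => 2 * Real.sqrt 3 * (27 / 4) * p i l k)‖ ≤ δ ∧
        ∀ t ∈ band, |stageShift d r₂ β p σ.gauge i l t| ≤ 1)
    {p : Param} (hp : InBox d p) (i : ℕ) (l : Fin (S.cd (d.j₀ + i)).len) :
    let st := (S.cd (d.j₀ + i)).stage l
    IsTarget (stageNorm d r₂ β p st.spec.gauge i l) ∧
      ‖stageNorm d r₂ β p st.spec.gauge i l -
        ctrlWord (bandBlocks st.spec.gauge) bandWeight st.letter
          (fun k => amp * p i l k)‖ ≤ δ := by
  have hplan : d.plan (d.j₀ + i) = (S.cd (d.j₀ + i)).stagePlan R := by rw [h.plan_eq]; rfl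
  have hlen : ((S.cd (d.j₀ + i)).stagePlan R).length = (S.cd (d.j₀ + i)).len := by simp [ClusterData.stagePlan]
  have hl' : (l : ℕ) < (d.plan (d.j₀ + i)).length := by rw [hplan, hlen]; exact l.2
  have he : (d.plan (d.j₀ + i))[(l : ℕ)] = ⟨((S.cd (d.j₀ + i)).stage l).spec.gauge, ((S.cd (d.j₀ + i)).stage l).nLet,
      ((S.cd (d.j₀ + i)).stage l).letter, R ^ (2 * (l : ℕ) + 1),
      if (l : ℕ) + 1 < (S.cd (d.j₀ + i)).len then R ^ (2 * (l : ℕ) + 2) else 0⟩ := by
    simp only [hplan]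
    exact (S.cd (d.j₀ + i)).stagePlan_getElem R l l.2 _
  have key : ∀ σ τ : StagePlan, σ = τ →
      (IsTarget (stageNorm d r₂ β p σ.gauge i l) ∧
        ‖stageNorm d r₂ β p σ.gauge i l - ctrlWord (bandBlocks σ.gauge) bandWeight σ.letter
          (fun k => 2 * Real.sqrt 3 * (27 / 4) * p i l k)‖ ≤ δ) →
      (IsTarget (stageNorm d r₂ β p τ.gauge i l) ∧
        ‖stageNorm d r₂ β p τ.gauge i l - ctrlWord (bandBlocks τ.gauge) bandWeight τ.letter
          (fun k => 2 * Real.sqrt 3 * (27 / 4) * p i l k)‖ ≤ δ) := by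
    rintro σ _ rfl hh
    exact hh
  simp only [amp]
  exact key _ _ he ⟨(hnear p hp i l hl').1, (hnear p hp i l hl').2.1⟩

lemma parOf_word (S : Schedule) {j₀ J : ℕ} (x : S.Vars j₀ J) (i : Fin J)
    (l : Fin (S.cd (j₀ + i)).len) :
    (fun k : Fin ((S.cd (j₀ + i)).stage l).nLet => amp * S.parOf x i l k) =
      ((S.cd (j₀ + i)).stage l).x0 + ((S.cd (j₀ + i)).stage l).dir
        (((S.cd (j₀ + i)).stage l).parRad • (x i).1 l) := by
  funext k
  have ha : amp ≠ 0 := by
    have : (0 : ℝ) < Real.sqrt 3 := Real.sqrt_pos.2 (by norm_num)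
    rw [amp]
    positivity
  simp only [Schedule.parOf, dif_pos i.2, dif_pos l.2, dif_pos k.2, Fin.eta]
  field_simp

/-- The moved variables of cluster `i`. -/
def upd (S : Schedule) (r₂ β : ℝ) (P : Matrix BPt BPt ℂ →L[ℝ] offSpace) {J : ℕ} (i : Fin J)
    (x : S.Vars d.j₀ J) (top : Matrix BPt BPt ℂ) : Var (S.cd (d.j₀ + i)) :=
  (fun l => (x i).1 l - (((S.cd (d.j₀ + i)).stage l).parRad)⁻¹ •
      ((S.cd (d.j₀ + i)).stage l).corr
        (stageNorm d r₂ β (S.parOf x) ((S.cd (d.j₀ + i)).stage l).spec.gauge i l -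
          ((S.cd (d.j₀ + i)).stage l).spec.tgt (S.slotVal r₂ β x i l)),
    (x i).2 - (corrSize (d.j₀ + i))⁻¹ • P (top - 1))

lemma upd_continuousOn (S : Schedule) (P : Matrix BPt BPt ℂ →L[ℝ] offSpace) {J : ℕ} (i : Fin J)
    {B : Set (S.Vars d.j₀ J)}
    (hc : ∀ l : Fin (S.cd (d.j₀ + i)).len,
      ContinuousOn (fun x => stageNorm d r₂ β (S.parOf x)
        ((S.cd (d.j₀ + i)).stage l).spec.gauge i l) B ∧
      ContinuousOn (fun x => S.slotVal r₂ β x i l) B) :
    ContinuousOn (Function.uncurry (upd S r₂ β P i)) (B ×ˢ Set.univ) := by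
  have hxi : Continuous fun z : S.Vars d.j₀ J × Matrix BPt BPt ℂ => z.1 i :=
    (continuous_apply (A := fun i : Fin J => Var (S.cd (d.j₀ + i))) i).comp continuous_fst
  have hfst : Continuous fun z : S.Vars d.j₀ J × Matrix BPt BPt ℂ => (z.1 i).1 := hxi.fst
  have hsnd : Continuous fun z : S.Vars d.j₀ J × Matrix BPt BPt ℂ => (z.1 i).2 := hxi.snd
  have hP : Continuous fun z : S.Vars d.j₀ J × Matrix BPt BPt ℂ =>
      (corrSize (d.j₀ + i))⁻¹ • P (z.2 - 1) := by
    have h0 : Continuous fun z : S.Vars d.j₀ J × Matrix BPt BPt ℂ => z.2 - 1 :=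
      continuous_snd.sub continuous_const
    exact (P.continuous.comp h0).fun_const_smul _
  refine ContinuousOn.prodMk (continuousOn_pi.2 fun l => ?_) (hsnd.sub hP).continuousOn
  · have h1 : ContinuousOn (fun z : S.Vars d.j₀ J × Matrix BPt BPt ℂ => stageNorm d r₂ β
        (S.parOf z.1) ((S.cd (d.j₀ + i)).stage l).spec.gauge i l) (B ×ˢ Set.univ) :=
      (hc l).1.comp continuousOn_fst fun z hz => hz.1
    have h2 : ContinuousOn (fun z : S.Vars d.j₀ J × Matrix BPt BPt ℂ =>
        S.slotVal r₂ β z.1 i l) (B ×ˢ Set.univ) :=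
      (hc l).2.comp continuousOn_fst fun z hz => hz.1
    refine ContinuousOn.sub ?_ ?_
    · exact ((continuous_apply (A := fun l : Fin (S.cd (d.j₀ + i)).len =>
        Fin ((S.cd (d.j₀ + i)).stage l).nPar → ℝ) l).comp hfst).continuousOn
    · exact (((S.cd (d.j₀ + i)).stage l).corr.continuous.comp_continuousOn
        (h1.sub (continuousOn_const.add
          ((slotDir ((S.cd (d.j₀ + i)).stage l)).continuous.comp_continuousOn h2)))).fun_const_smul
        (((S.cd (d.j₀ + i)).stage l).parRad)⁻¹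

end ChainAux

open ChainAux

/-- Parameters for which every cluster sends the followed columns to followed columns times a
monomial. -/
theorem exists_cluster_chain (S : Schedule) : ∃ R₀ : ℕ, ∀ R ≥ R₀, ∃ (C : ℝ) (j₁ : ℕ), 0 < C ∧
    ∀ (d : PathData) (r₂ β φ₀ : ℝ), S.Adm R d r₂ β φ₀ → j₁ ≤ d.j₀ → ∀ J K : ℕ,
      ∃ (p : Param) (q : ℕ → Matrix (QPt (K + 40)) BPt ℂ) (D : ℕ → Matrix BPt BPt ℂ),
        InBox d p ∧ q J = 0 ∧ (∀ i ≤ J, ‖q i‖ ≤ 1) ∧
        ∀ i < J,
          let M := clusterMono d r₂ β p (S.cd (d.j₀ + i)) i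
          IsUnit M ∧ IsUnit (D i) ∧ sibPart uOf (D i) = D i ∧
          ‖(D i)⁻¹‖ ≤ Real.exp (C * errSize (d.j₀ + i)) ∧
          truncBack d r₂ β p (K + 40) (clusterStart d i) (clusterStart d (i + 1)) *
              colLift K (q (i + 1)) =
            colLift K (q i) * (D i * M) := by
  obtain ⟨P, hPv, hPker⟩ := exists_offProj
  obtain ⟨M, hM1, hM⟩ := exists_stage_const S
  obtain ⟨R₀, hR₀⟩ := blocks_est S
  refine ⟨R₀, fun R hR => ?_⟩
  obtain ⟨Cb, j₁, hCb, hest⟩ := hR₀ R hR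
  obtain ⟨j₂, hcont⟩ := blocks_continuous S R
  obtain ⟨j₃, hnear⟩ := stageNorm_near S.period (S.plan R) S.box M⁻¹
    (inv_pos.2 (lt_of_lt_of_le one_pos hM1))
  obtain ⟨N, hN⟩ : ∃ N : ℝ, N = (Fintype.card BPt : ℝ) + 1 := ⟨_, rfl⟩
  have hN1 : 1 ≤ N := by rw [hN]; exact le_add_of_nonneg_left (Nat.cast_nonneg _)
  have hN0 : 0 < N := lt_of_lt_of_le one_pos hN1
  -- one bound on the size of the corrections covers all conditions
  set B : ℝ := 4 * N * N * Cb + 4 * N * Cb + 2 * ‖P‖ * Cb + M * M * Cb + 1 with hB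
  have hB1 : 1 ≤ B := by
    rw [hB]
    have h1 : 0 ≤ 4 * N * N * Cb + 4 * N * Cb + 2 * ‖P‖ * Cb + M * M * Cb := by positivity
    linarith
  obtain ⟨j₄, hj₄⟩ := eventually_atTop.1
    (tendsto_corrSize.eventually (eventually_le_nhds (inv_pos.2 (lt_of_lt_of_le one_pos hB1))))
  refine ⟨2 * N * (N * Cb), max (max j₁ j₂) (max j₃ j₄), by positivity,
    fun d r₂ β φ₀ hA hj J K => ?_⟩
  simp only [max_le_iff] at hj
  obtain ⟨⟨hj1, hj2⟩, hj3, hj4⟩ := hj
  have hest' := hest d r₂ β φ₀ hA hj1 J K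
  have hcont' := hcont d r₂ β φ₀ hA hj2 J K
  have hnear' := hnear d r₂ β φ₀ (hA.period_eq) hA.plan_eq hA.box_eq hj3 hA.good
  have hc0 : ∀ i : ℕ, 0 < corrSize (d.j₀ + i) := fun i => Real.exp_pos _
  have hsmall : ∀ (i : ℕ) {a : ℝ}, 0 ≤ a → a ≤ B → a * corrSize (d.j₀ + i) ≤ 1 := by
    intro i a ha haB
    calc a * corrSize (d.j₀ + i) ≤ B * B⁻¹ :=
          mul_le_mul haB (hj₄ _ (hj4.trans (Nat.le_add_right _ _))) (hc0 i).le (by linarith)
      _ = 1 := mul_inv_cancel₀ (by linarith)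
  have hcle : ∀ i : ℕ, corrSize (d.j₀ + i) ≤ 1 := fun i => by
    simpa using hsmall i zero_le_one hB1
  have hsmall2 : ∀ (i : ℕ) {a : ℝ}, 0 ≤ a → a ≤ B → a * errSize (d.j₀ + i) ≤ 1 := by
    intro i a ha haB
    rw [errSize_eq, ← mul_assoc]
    exact le_trans (mul_le_mul (hsmall i ha haB) (hcle i) (hc0 i).le zero_le_one) (one_mul 1).le
  have hterm : ∀ a ∈ [4 * N * N * Cb, 4 * N * Cb, 2 * ‖P‖ * Cb, M * M * Cb],
      0 ≤ a ∧ a ≤ B := by
    have e1 : 0 ≤ 4 * N * N * Cb := by positivity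
    have e2 : 0 ≤ 4 * N * Cb := by positivity
    have e3 : 0 ≤ 2 * ‖P‖ * Cb := by positivity
    have e4 : 0 ≤ M * M * Cb := by positivity
    simp only [List.forall_mem_cons, hB]
    exact ⟨⟨e1, by linarith⟩, ⟨e2, by linarith⟩, ⟨e3, by linarith⟩, ⟨e4, by linarith⟩,
      fun _ h => nomatch h⟩
  simp only [List.forall_mem_cons] at hterm
  obtain ⟨⟨a1, b1⟩, ⟨a2, b2⟩, ⟨a3, b3⟩, ⟨a4, b4⟩, -⟩ := hterm
  have hpi : (Set.univ.pi fun i : Fin J => closedBall (0 : Var (S.cd (d.j₀ + i))) 1) =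
      closedBall (0 : S.Vars d.j₀ J) 1 := (closedBall_pi 0 zero_le_one).symm
  have hstage : ∀ x : S.Vars d.j₀ J, ‖x‖ ≤ 1 → ∀ (i : Fin J) (l : Fin (S.cd (d.j₀ + i)).len),
      let st := (S.cd (d.j₀ + i)).stage l
      let Mn := stageNorm d r₂ β (S.parOf x) st.spec.gauge i l
      let T := st.spec.tgt (S.slotVal r₂ β x i l)
      (st.parRad • (x i).1 l ∈ closedBall (0 : Fin st.nPar → ℝ) st.parRad) ∧ IsTarget Mn ∧
        ‖Mn - ctrlWord (bandBlocks st.spec.gauge) bandWeight st.letter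
          (st.x0 + st.dir (st.parRad • (x i).1 l))‖ ≤ st.tol ∧
        ‖T - NormedSpace.exp st.spec.X‖ ≤ st.tol ∧ IsTarget T := by
    intro x hx i l
    set st := (S.cd (d.j₀ + i)).stage l with hst
    obtain ⟨htol, hslot⟩ := hM (d.j₀ + i) l
    obtain ⟨h1, h2⟩ := stage_near hA hnear' (S.parOf_mem hA hx) i l
    rw [parOf_word S x i l] at h2
    have hy : ‖(x i).1 l‖ ≤ 1 :=
      ((norm_le_pi_norm _ l).trans (norm_fst_le (x i))).trans ((norm_le_pi_norm x i).trans hx)
    refine ⟨?_, h1, h2.trans htol, ?_, (S.cd (d.j₀ + i)).spec.target _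
      (List.mem_ofFn.2 ⟨l, rfl⟩) _⟩
    · rw [mem_closedBall_zero_iff, norm_smul, Real.norm_of_nonneg st.parRad_pos.le]
      exact mul_le_of_le_one_right st.parRad_pos.le hy
    · rw [StageSpec.tgt, add_sub_cancel_left]
      have hv := (hest' x hx i).2.1 l l.2
      calc ‖st.spec.N (S.slotVal r₂ β x i l)‖ ≤ ‖slotDir st‖ * ‖S.slotVal r₂ β x i l‖ :=
            (slotDir st).le_opNorm _
        _ ≤ M * (Cb * corrSize (d.j₀ + i)) := mul_le_mul hslot hv (norm_nonneg _) (by linarith)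
        _ = M⁻¹ * (M * M * Cb * corrSize (d.j₀ + i)) := by field_simp
        _ ≤ M⁻¹ * 1 := mul_le_mul_of_nonneg_left (hsmall i a4 b4) (by positivity)
        _ ≤ st.tol := by rw [mul_one]; exact htol
  have hbound : ∀ (i : Fin J), ∀ x ∈ (Set.univ.pi fun i : Fin J =>
      closedBall (0 : Var (S.cd (d.j₀ + i))) 1),
      (S.blocks r₂ β K x i).Bound uOf (N * (Cb * errSize (d.j₀ + i))) := by
    intro i x hx
    rw [hpi, mem_closedBall_zero_iff] at hx
    obtain ⟨hu, -, ha, hb, hQS, hQQ⟩ := hest' x hx i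
    have hη : 0 ≤ Cb * errSize (d.j₀ + i) := mul_nonneg hCb.le (Real.exp_pos _).le
    have hle := le_mul_of_one_le_left hη hN1
    refine ⟨hu, ?_, hb.trans hle, hQS.trans hle, hQQ.trans hle⟩
    have e : sibPart uOf (S.blocks r₂ β K x i).a - 1 = sibPart uOf ((S.blocks r₂ β K x i).a -
        (1 + corrSize (d.j₀ + i) • (((x i).2 : offSpace) : Matrix BPt BPt ℂ))) := by
      rw [sibPart_sub', sibPart_add, sibPart_one', sibPart_smul', offSpace_sibPart (x i).2.2,
        smul_zero, add_zero]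
    rw [e]
    refine (sibPart_norm_le uOf _).trans ?_
    exact mul_le_mul (by rw [hN]; linarith) ha (norm_nonneg _) (by linarith)
  have hη1 : ∀ i : Fin J, 2 * (Fintype.card BPt + 1) * (N * (Cb * errSize (d.j₀ + i))) ≤ 1 / 2 := by
    intro i
    have := hsmall2 i a1 b1
    rw [← hN]
    linarith
  have hη2 : ∀ i : Fin J, 4 * (N * (Cb * errSize (d.j₀ + i))) ≤ 1 := by
    intro i
    have := hsmall2 i a2 b2
    linarith
  obtain ⟨x, hx, q, hqJ, hq, hnxt, hfix⟩ := exists_monomial_chain uOf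
    (ρ := fun _ : Fin J => (1 : ℝ)) (fun _ => zero_le_one) (fun i x => S.blocks r₂ β K x i)
    (fun i => upd S r₂ β P i) {q | IsRealCol q} isRealCol_zero hη1 hη2 hbound
    (fun i => by rw [hpi]; exact (hcont' i).1)
    (fun i => by rw [hpi]; exact (hcont' i).2.1)
    (fun i => by rw [hpi]; exact (hcont' i).2.2.1)
    (fun i => by rw [hpi]; exact (hcont' i).2.2.2.1)
    (fun i => by rw [hpi]; exact (hcont' i).2.2.2.2.1)
    (fun i => by rw [hpi]; exact upd_continuousOn S P i (hcont' i).2.2.2.2.2)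
    (fun i x hx q hq hq1 => by
      have hu := (ClusterBlocks.qIn_le uOf (hbound i x hx) (hη1 i) (hη2 i) hq1).1
      have hxn : ‖x‖ ≤ 1 := by rwa [hpi, mem_closedBall_zero_iff] at hx
      exact (blocks_real hA (S.parOf_mem hA hxn) K i _ (hest' x hxn i).1 hq).2.2 hu)
    (fun i x hx q hq hq1 => by
      have hxn : ‖x‖ ≤ 1 := by rwa [hpi, mem_closedBall_zero_iff] at hx
      show max _ _ ≤ (1 : ℝ)
      refine max_le ((pi_norm_le_iff_of_nonneg zero_le_one).2 fun l => ?_) ?_
      · obtain ⟨hball, -, hMn, hT, -⟩ := hstage x hxn i l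
        set st := (S.cd (d.j₀ + i)).stage l with hst
        have h := st.corr_mem _ hball _ _ hMn hT
        rw [mem_closedBall_zero_iff] at h
        set c := st.corr (stageNorm d r₂ β (S.parOf x) st.spec.gauge i l -
          st.spec.tgt (S.slotVal r₂ β x i l))
        calc ‖(x i).1 l - st.parRad⁻¹ • c‖ = ‖st.parRad⁻¹ • (st.parRad • (x i).1 l - c)‖ := by
              rw [smul_sub, smul_smul, inv_mul_cancel₀ st.parRad_pos.ne', one_smul]
          _ ≤ st.parRad⁻¹ * st.parRad := by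
              rw [norm_smul, Real.norm_of_nonneg (inv_nonneg.2 st.parRad_pos.le)]
              exact mul_le_mul_of_nonneg_left h (inv_nonneg.2 st.parRad_pos.le)
          _ = 1 := inv_mul_cancel₀ st.parRad_pos.ne'
      · obtain ⟨-, -, ha, hb, -, -⟩ := hest' x hxn i
        set Kb := S.blocks r₂ β K x i
        set v : offSpace := (x i).2
        set e := Kb.a - (1 + corrSize (d.j₀ + i) • (v : Matrix BPt BPt ℂ)) + Kb.b * q * Kb.M⁻¹
        have htop : Kb.top q - 1 = corrSize (d.j₀ + i) • (v : Matrix BPt BPt ℂ) + e := by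
          simp only [ClusterBlocks.top, e]
          abel
        have he : ‖e‖ ≤ 2 * (Cb * errSize (d.j₀ + i)) := by
          refine (norm_add_le _ _).trans ?_
          have : ‖Kb.b * q * Kb.M⁻¹‖ ≤ ‖Kb.b‖ * ‖Kb.M⁻¹‖ :=
            (Matrix.l2_opNorm_mul _ _).trans (mul_le_mul_of_nonneg_right
              ((Matrix.l2_opNorm_mul _ _).trans (mul_le_of_le_one_right (norm_nonneg _) hq1))
              (norm_nonneg _))
          linarith
        have hne := (hc0 i).ne'
        simp only [upd]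
        rw [htop, map_add, map_smul, hPv, smul_add, smul_smul, inv_mul_cancel₀ hne, one_smul,
          sub_add_cancel_left, norm_neg, norm_smul,
          Real.norm_of_nonneg (inv_nonneg.2 (hc0 i).le)]
        calc (corrSize (d.j₀ + i))⁻¹ * ‖P e‖
            ≤ (corrSize (d.j₀ + i))⁻¹ * (‖P‖ * (2 * (Cb * errSize (d.j₀ + i)))) :=
              mul_le_mul_of_nonneg_left
                ((P.le_opNorm e).trans (mul_le_mul_of_nonneg_left he (norm_nonneg _)))
                (inv_nonneg.2 (hc0 i).le)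
          _ = 2 * ‖P‖ * Cb * corrSize (d.j₀ + i) := by
              rw [errSize_eq]
              field_simp
          _ ≤ 1 := hsmall i a3 b3)
  have hxn : ‖x‖ ≤ 1 := by rwa [hpi, mem_closedBall_zero_iff] at hx
  refine ⟨S.parOf x, fun i => if h : i ≤ J then q ⟨i, Nat.lt_succ_of_le h⟩ else 0,
    fun i => if h : i < J then (S.blocks r₂ β K x ⟨i, h⟩).top (q (Fin.succ ⟨i, h⟩)) else 1,
    S.parOf_mem hA hxn, ?_, fun i hi => ?_, fun i hi => ?_⟩
  · simp only [dif_pos le_rfl]
    exact hqJ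
  · simp only [dif_pos hi]
    exact (hq _).2
  set j : Fin J := ⟨i, hi⟩
  simp only [dif_pos hi, dif_pos hi.le, dif_pos (Nat.succ_le_of_lt hi)]
  set Kb := S.blocks r₂ β K x j with hKb
  set qs := q j.succ with hqs
  have hq' : q ⟨i, Nat.lt_succ_of_le hi.le⟩ = Kb.qIn uOf qs := hnxt j
  obtain ⟨hu, -, hinv, -⟩ :=
    ClusterBlocks.qIn_le uOf (hbound j x hx) (hη1 j) (hη2 j) (hq j.succ).2
  obtain ⟨hreal, hpar, -⟩ :=
    blocks_real hA (S.parOf_mem hA hxn) K j (S.slotVal r₂ β x j) (hest' x hxn j).1 (hq j.succ).1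
  have hfix' := hfix j
  have hz : (corrSize (d.j₀ + i))⁻¹ • P (Kb.top qs - 1) = 0 :=
    sub_eq_self.1 (congrArg Prod.snd hfix')
  have hPz : P (Kb.top qs - 1) = 0 :=
    (smul_eq_zero.1 hz).resolve_left (inv_ne_zero (hc0 i).ne')
  have hsib : sibPart uOf (Kb.top qs) = Kb.top qs := by
    have h := hPker _ (isRealBand_sub_one hreal) (isParBand_sub_one hpar) hPz
    rw [sibPart_sub', sibPart_one', sub_left_inj] at h
    exact h.symm
  have hhit : ∀ l : Fin (S.cd (d.j₀ + i)).len,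
      stageNorm d r₂ β (S.parOf x) ((S.cd (d.j₀ + i)).stage l).spec.gauge i l =
        ((S.cd (d.j₀ + i)).stage l).spec.tgt (S.slotVal r₂ β x j l) := by
    intro l
    obtain ⟨hball, hMt, hMn, hT, hTt⟩ := hstage x hxn j l
    refine ((S.cd (d.j₀ + i)).stage l).corr_eq _ hball _ _ hMn hT hMt hTt ?_
    have h : (((S.cd (d.j₀ + i)).stage l).parRad)⁻¹ •
        ((S.cd (d.j₀ + i)).stage l).corr
          (stageNorm d r₂ β (S.parOf x) ((S.cd (d.j₀ + i)).stage l).spec.gauge i l -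
            ((S.cd (d.j₀ + i)).stage l).spec.tgt (S.slotVal r₂ β x j l)) = 0 :=
      sub_eq_self.1 (congrFun (congrArg Prod.fst hfix') l)
    exact (smul_eq_zero.1 h).resolve_left (inv_ne_zero ((S.cd (d.j₀ + i)).stage l).parRad_pos.ne')
  refine ⟨(hest' x hxn j).1, hsib ▸ hu, hsib, ?_, ?_⟩
  · rw [← hsib]
    calc ‖(sibPart uOf (Kb.top qs))⁻¹‖ = ‖((sibPart uOf (Kb.top qs))⁻¹ - 1) + 1‖ := by
          rw [sub_add_cancel]
      _ ≤ 2 * (Fintype.card BPt + 1) * (N * (Cb * errSize (d.j₀ + i))) + 1 :=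
          (norm_add_le _ _).trans (add_le_add hinv norm_one_matrix_le)
      _ = 2 * N * (N * Cb) * errSize (d.j₀ + i) + 1 := by rw [← hN]; ring
      _ ≤ _ := Real.add_one_le_exp _
  obtain ⟨hcol1, hcol2⟩ := Kb.column_eq uOf (hest' x hxn j).1 hu hsib
  rw [hsib] at hcol1 hcol2
  set p := S.parOf x with hp
  set Raw := rawMap d r₂ β p (S.cd (d.j₀ + i)) K i (S.slotVal r₂ β x j)
  set Mo := clusterMono d r₂ β p (S.cd (d.j₀ + i)) i
  have hMu : IsUnit Mo.det := (Matrix.isUnit_iff_isUnit_det _).1 (hest' x hxn j).1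
  have ha : Kb.a * Kb.M = (bandLift K)ᴴ * Raw * bandLift K := by
    show (bandLift K)ᴴ * Raw * bandLift K * Mo⁻¹ * Mo = _
    rw [Matrix.mul_assoc _ Mo⁻¹, Matrix.nonsing_inv_mul _ hMu, Matrix.mul_one]
  have hcs : ∀ m, startTime r₂ ≤ clusterStart d m := fun m =>
    Trunc.startTime_le hA.good (Trunc.clusterStart_ge hA.good m)
  rw [mul_lift_eq
    (fun a b hab => truncBack_const hA.good (S.parOf_mem hA hxn) (K + 40) (hcs i)
      ((clusterStart_bounds hA.good).1.monotone (Nat.le_succ i)) hab)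
    (fun a b ha hb => (rawMap_eq hA (S.parOf_mem hA hxn) K i _ hhit a b ha hb).symm)
    (fun y b hy => colLift_row_zero _ hy b)]
  have t1 : (bandLift K)ᴴ * (Raw * colLift K qs) = Kb.top qs * Mo := by
    refine Eq.trans ?_ hcol1
    rw [ha, colLift, Matrix.mul_add, Matrix.mul_add, ← Matrix.mul_assoc,
      ← Matrix.mul_assoc Raw (qLift K) qs, ← Matrix.mul_assoc (bandLift K)ᴴ (Raw * qLift K) qs,
      ← Matrix.mul_assoc (bandLift K)ᴴ Raw (qLift K)]
    rfl
  have t2 : (qLift K)ᴴ * (Raw * colLift K qs) = Kb.qIn uOf qs * (Kb.top qs * Mo) := by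
    refine Eq.trans ?_ hcol2
    rw [colLift, Matrix.mul_add, Matrix.mul_add, ← Matrix.mul_assoc,
      ← Matrix.mul_assoc Raw (qLift K) qs, ← Matrix.mul_assoc (qLift K)ᴴ (Raw * qLift K) qs,
      ← Matrix.mul_assoc (qLift K)ᴴ Raw (qLift K)]
    rfl
  show (bandLift K * (bandLift K)ᴴ + qLift K * (qLift K)ᴴ) * (Raw * colLift K qs) = _
  rw [hq', Matrix.add_mul, Matrix.mul_assoc, Matrix.mul_assoc, t1, t2, colLift, Matrix.add_mul,
    Matrix.mul_assoc]

end Vale.Agent.P225
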