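import Vale.Agent.P225.Assembly.Limit
import Vale.Agent.P225.Main.PointSums
import Vale.Agent.P225.System.Coeff.IsCoeff

/-!
P225, assembly: a solution along the path with rapid decay is a coefficient system of the metric.
-/

noncomputable section

namespace Vale.Agent.P225

open Matrix SU2 Set
open scoped ComplexOrder ContDiff Topology Matrix.Norms.L2Operator

variable {d : PathData} {r₂ β φ₀ : ℝ}

namespace CoeffAux

open IsCoeffAux

/-- Two solutions of `D'' = c D - 2 D'` with the same data at `t₀`, forwards. -/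
theorem eq_forward {D D' : ℝ → ℂ} {c : ℝ → ℝ} {t₀ t : ℝ} (ht : t₀ ≤ t)
    (hc : ContinuousOn c (Icc t₀ t)) (h1 : ∀ s ∈ Icc t₀ t, HasDerivAt D (D' s) s) {σ : ℝ}
    (hσ : |σ| ≤ 2)
    (h2 : ∀ s ∈ Icc t₀ t, HasDerivAt D' ((c s : ℂ) * D s + (σ : ℂ) * D' s) s)
    (e0 : D t₀ = 0) (e1 : D' t₀ = 0) : D t = 0 := by
  have h := eq_zero_of_deriv_le (f := fun s => (D s, D' s))
    (f' := fun s => (D' s, (c s : ℂ) * D s + (σ : ℂ) * D' s)) (K := fun s => |c s| + 2)
    (fun s hs => (h1 s hs).prodMk (h2 s hs)) (hc.abs.add continuousOn_const) (fun s _ => ?_)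
    (Prod.ext e0 e1) t ⟨ht, le_rfl⟩
  · exact congrArg Prod.fst h
  · have hp1 : ‖D s‖ ≤ ‖(D s, D' s)‖ := le_max_left _ _
    have hp2 : ‖D' s‖ ≤ ‖(D s, D' s)‖ := le_max_right _ _
    have hn := norm_nonneg (D s, D' s)
    have hc0 := abs_nonneg (c s)
    refine max_le (a := ‖D' s‖) (hp2.trans (le_mul_of_one_le_left hn (by linarith))) ?_
    refine (norm_add_le _ _).trans ?_
    rw [norm_mul, norm_mul, Complex.norm_real, Complex.norm_real, Real.norm_eq_abs,
      Real.norm_eq_abs, add_mul]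
    exact add_le_add (mul_le_mul_of_nonneg_left hp1 hc0)
      (mul_le_mul hσ hp2 (norm_nonneg _) zero_le_two)

/-- Below `r₂` the solution is the regular one. -/
theorem eq_core (hd : d.Good r₂ β φ₀) {p : Param} {f : Pnt → ℝ → ℂ} (hf : IsPathSolution d p f)
    (hcore : ∀ x, ∀ t ∈ Icc (startTime r₂) (Real.log r₂),
      deriv (f x) t = (coreRate β (lab x) t : ℂ) * f x t)
    (x : Pnt) {t : ℝ} (ht : t < Real.log r₂) :
    f x t = f x (startTime r₂) / ((coreG β x (startTime r₂) : ℝ) : ℂ) *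
      ((coreG β x t : ℝ) : ℂ) := by
  have hβ := hd.β_pos
  set L := Real.log r₂
  set t₀ := startTime r₂ with ht₀
  have h0L : t₀ < L := by rw [ht₀, startTime]; linarith
  set ξ : ℂ := f x t₀ / ((coreG β x t₀ : ℝ) : ℂ)
  have hg0 : ((coreG β x t₀ : ℝ) : ℂ) ≠ 0 := Complex.ofReal_ne_zero.2 (coreG_pos hβ x t₀).ne'
  set D : ℝ → ℂ := fun s => f x s - ξ * ((coreG β x s : ℝ) : ℂ) with hD
  set D' : ℝ → ℂ := fun s => deriv (f x) s - ξ * ((coreW β x s * coreG β x s : ℝ) : ℂ) with hD'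
  set c : ℝ → ℝ := fun s => (lab x 1 : ℝ) * ((lab x 1 : ℝ) + 2) + coreS β x s with hcdef
  have hc : Continuous c := continuous_const.add
    (continuous_iff_continuousAt.2 fun s => (hasDerivAt_coreS β x s).continuousAt)
  have h1 : ∀ s, HasDerivAt D (D' s) s := fun s =>
    ((hf.diff x s).hasDerivAt).sub ((hasDerivAt_coreG hβ x s).ofReal_comp.const_mul ξ)
  have h2 : ∀ s < L, HasDerivAt D' ((c s : ℂ) * D s + ((-2 : ℝ) : ℂ) * D' s) s := fun s hs => by
    have hrow : rowSum (pathGauge d s) (pathOp d p s) (fun y => f y s) x = (c s : ℂ) * f x s :=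
      core_row hd p hs (fun y => f y s) x
    refine ((hf.ode x s).sub ((hasDerivAt_coreG' hβ x s).ofReal_comp.const_mul ξ)).congr_deriv ?_
    rw [hrow, (core_path hd p hs).2.2, hD, hD', hcdef]
    push_cast
    ring
  have e0 : D t₀ = 0 := by simp only [hD, ξ, div_mul_cancel₀ _ hg0, sub_self]
  have e1 : D' t₀ = 0 := by
    have hw : coreRate β (lab x) t₀ = coreW β x t₀ := coreRate_eq β (lab x) t₀
    simp only [hD']
    rw [hcore x t₀ ⟨le_rfl, h0L.le⟩, hw, Complex.ofReal_mul, mul_left_comm ξ,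
      show ξ * ((coreG β x t₀ : ℝ) : ℂ) = f x t₀ from div_mul_cancel₀ _ hg0, sub_self]
  refine sub_eq_zero.1 (show D t = 0 from ?_)
  rcases le_total t₀ t with h | h
  · exact eq_forward h hc.continuousOn (fun s _ => h1 s) (by norm_num : |(-2 : ℝ)| ≤ 2)
      (fun s hs => h2 s (hs.2.trans_lt ht)) e0 e1
  · -- reflect in `t₀`
    have hm : ∀ s : ℝ, HasDerivAt (fun u => 2 * t₀ - u) (-1 : ℝ) s := fun s =>
      (hasDerivAt_id s).const_sub _
    have := eq_forward (D := fun s => D (2 * t₀ - s)) (D' := fun s => -D' (2 * t₀ - s))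
      (c := fun s => c (2 * t₀ - s)) (σ := 2) (show t₀ ≤ 2 * t₀ - t by linarith)
      (hc.comp (continuous_const.sub continuous_id)).continuousOn
      (fun s _ => ((h1 _).scomp s (hm s)).congr_deriv (by simp)) (by norm_num)
      (fun s hs => ((h2 _ (by linarith [hs.1])).scomp s (hm s)).neg.congr_deriv
        (by push_cast; simp; ring))
      (by rw [two_mul, add_sub_cancel_right]; exact e0)
      (by rw [two_mul, add_sub_cancel_right, e1, neg_zero])
    simpa using this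

end CoeffAux

open CoeffAux IsCoeffAux

theorem isCoeff_of_pathSolution (hd : d.Good r₂ β φ₀) {p : Param} (hp : InBox d p)
    {f : Pnt → ℝ → ℂ} (hf : IsPathSolution d p f)
    (hcore : ∀ x, ∀ t ∈ Icc (startTime r₂) (Real.log r₂),
      deriv (f x) t = (coreRate β (lab x) t : ℂ) * f x t)
    (hdec : ∀ (m : ℕ) (T : ℝ), ∃ D : ℝ, ∀ x, ∀ t ∈ Icc (startTime r₂) T,
      ((ptSize x : ℝ) + 1) ^ m * (‖f x t‖ + ‖deriv (f x) t‖) ≤ D)
    (hgrow : ∃ D : ℝ, ∀ x, ∀ t, clusterStart d 0 ≤ t →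
      ((ptSize x : ℝ) + 1) ^ 27 * ‖f x t‖ ≤ D * Real.exp (20 * t)) :
    (∃ ξ : Pnt → ℂ,
      IsCoeff (pathMetric d p r₂ β) (r₂ / 2) r₂ β (fun x r => f x (Real.log r)) ξ) ∧
    ∃ C : ℝ, ∀ r, 0 < r →
      ∑' x : Pnt, ((ptSize x : ℝ) + 1) ^ 3 * ‖f x (Real.log r)‖ ≤ C * (1 + r) ^ 20 := by
  have hβ := hd.β_pos
  have hr₂ := hd.r₂_pos
  set L := Real.log r₂ with hL
  set t₀ := startTime r₂ with ht₀
  have h0L : t₀ < L := by rw [ht₀, startTime]; linarith
  set ξ : Pnt → ℂ := fun x => f x t₀ / ((coreG β x t₀ : ℝ) : ℂ) with hξ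
  have hsol : IsPathSol d p t₀ f (fun x => deriv (f x)) :=
    ⟨fun x t _ => (hf.diff x t).hasDerivAt, fun x t _ => hf.ode x t, fun a b ha _ q => by
      obtain ⟨D, hD⟩ := hdec q b
      exact ⟨D, fun x t ht => hD x t ⟨ha.le.trans ht.1, ht.2⟩⟩⟩
  have hc' : ∀ x t, t < L → f x t = coreCoeff β ξ x (Real.exp t) := fun x t ht => by
    rw [coreCoeff_exp]
    exact eq_core hd hf hcore x ht
  have hI := radialCoeff_isCoeff hd hp hsol (ξ := ξ) fun x t _ h => hc' x t h
  have heq : ∀ x r, 0 < r → f x (Real.log r) = radialCoeff r₂ β ξ f x r := fun x r hr => by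
    unfold radialCoeff
    split_ifs with h
    · rw [hc' x _ (Real.log_lt_log hr h), Real.exp_log hr]
    · rfl
  refine ⟨⟨ξ, by positivity, by linarith, hβ, hI.core_metric,
    fun x r hr h => (heq x r hr).trans (hI.core x r hr h), hI.core_decay,
    fun x => (hI.smooth x).congr fun r hr => heq x r hr, fun a b ha hab m q => ?_,
    fun r hr => ?_⟩, ?_⟩
  · obtain ⟨C, hC⟩ := hI.decay a b ha hab m q
    refine ⟨C, fun x r h => le_of_eq_of_le ?_ (hC x r h)⟩
    have heqOn : EqOn (fun r => f x (Real.log r)) (radialCoeff r₂ β ξ f x) (Ioi 0) :=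
      fun u hu => heq x u hu
    rw [iteratedDerivWithin_congr heqOn (show r ∈ Ioi (0 : ℝ) from ha.trans_le h.1)]
  · obtain ⟨G, M, ε, hε, hM, hsym, hmet, hode⟩ := hI.local_solution r hr
    have hsub : ∀ s ∈ Ioo (r - min ε r) (r + min ε r), s ∈ Ioo (r - ε) (r + ε) := fun s hs =>
      ⟨by linarith [hs.1, min_le_left ε r], by linarith [hs.2, min_le_left ε r]⟩
    refine ⟨G, M, min ε r, lt_min hε hr, fun s hs => hM s (hsub s hs), hsym,
      fun v hv hs => hmet v hv (hsub _ hs), fun x s hs => ?_⟩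
    have hs0 : 0 < s := by linarith [hs.1, min_le_right ε r]
    have e : (fun u => f x (Real.log u)) =ᶠ[𝓝 s] radialCoeff r₂ β ξ f x := by
      filter_upwards [Ioi_mem_nhds hs0] with u hu using heq x u hu
    show deriv (deriv fun u => f x (Real.log u)) s + _ * deriv (fun u => f x (Real.log u)) s =
      rowSum G _ (fun y => f y (Real.log s)) x
    rw [e.deriv.deriv_eq, e.deriv_eq, funext fun y => heq y s hs0]
    exact hode x s (hsub s hs)
  · -- growth
    obtain ⟨D₁, hD₁⟩ := hgrow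
    obtain ⟨D₂, hD₂⟩ := hdec 27 (clusterStart d 0)
    have h0c : t₀ ≤ clusterStart d 0 := by
      show startTime r₂ ≤ (d.j₀ : ℝ) ^ 6
      have := hd.pre_late
      rw [startTime]; linarith
    set E := max (max D₁ D₂) 0 with hE
    have hE0 : 0 ≤ E := le_max_right _ _
    have hb : ∀ x t, ((ptSize x : ℝ) + 1) ^ 27 * ‖f x t‖ ≤ E * (1 + Real.exp t) ^ 20 := by
      intro x t
      set n : ℝ := (ptSize x : ℝ) + 1
      have he := Real.exp_pos t
      have h1 : (1 : ℝ) ≤ (1 + Real.exp t) ^ 20 := one_le_pow₀ (by linarith)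
      have hmid : ∀ u ∈ Icc t₀ (clusterStart d 0), n ^ 27 * ‖f x u‖ ≤ E := fun u hu =>
        le_trans (mul_le_mul_of_nonneg_left (le_add_of_nonneg_right (norm_nonneg _)) (by positivity))
          ((hD₂ x u hu).trans ((le_max_right D₁ D₂).trans (le_max_left _ _)))
      rcases le_total (clusterStart d 0) t with hc | hc
      · refine (hD₁ x t hc).trans (mul_le_mul ((le_max_left D₁ D₂).trans (le_max_left _ _)) ?_
          (Real.exp_pos _).le hE0)
        rw [show (20 : ℝ) * t = ((20 : ℕ) : ℝ) * t by norm_num, Real.exp_nat_mul]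
        exact pow_le_pow_left₀ he.le (by linarith) 20
      refine le_trans ?_ (le_mul_of_one_le_right hE0 h1)
      rcases le_total t₀ t with h | h
      · exact hmid t ⟨h, hc⟩
      · refine le_trans (mul_le_mul_of_nonneg_left ?_ (by positivity)) (hmid t₀ ⟨le_rfl, h0c⟩)
        rw [eq_core hd hf hcore x (h.trans_lt h0L), norm_mul, norm_div, Complex.norm_real,
          Complex.norm_real, Real.norm_eq_abs, Real.norm_eq_abs, abs_of_pos (coreG_pos hβ x t),
          abs_of_pos (coreG_pos hβ x _), div_mul_eq_mul_div, div_le_iff₀ (coreG_pos hβ x _)]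
        exact mul_le_mul_of_nonneg_left (coreG_mono hβ x h) (norm_nonneg _)
    refine ⟨E * ∑' x : Pnt, (((ptSize x : ℝ) + 1) ^ 24)⁻¹, fun r hr => ?_⟩
    have hterm : ∀ x : Pnt, ((ptSize x : ℝ) + 1) ^ 3 * ‖f x (Real.log r)‖ ≤
        E * (1 + r) ^ 20 * (((ptSize x : ℝ) + 1) ^ 24)⁻¹ := fun x => by
      have h := hb x (Real.log r)
      rw [Real.exp_log hr] at h
      rw [le_mul_inv_iff₀ (by positivity)]
      calc _ = ((ptSize x : ℝ) + 1) ^ 27 * ‖f x (Real.log r)‖ := by ring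
        _ ≤ _ := h
    refine (Summable.tsum_le_tsum hterm ((summable_ptSize.mul_left _).of_nonneg_of_le
      (fun x => by positivity) hterm) (summable_ptSize.mul_left _)).trans (le_of_eq ?_)
    rw [tsum_mul_left]
    ring

end Vale.Agent.P225
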