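import Vale.Agent.P225.Assembly.Columns.Mat

/-!
P225, assembly: the followed columns grow at most like `exp ((20 - δ/2) t)`, uniformly in the
truncation.
-/

noncomputable section

namespace Vale.Agent.P225

open Matrix SU2
open scoped ComplexOrder Matrix.Norms.L2Operator

attribute [local irreducible] band

/-- Columns which are the band identity at the first cluster and grow slowly at the switch
times. -/
def HasColumns (d : PathData) (r₂ β C k : ℝ) : Prop :=
  ∀ J K : ℕ, ∃ p : Param, InBox d p ∧ ∃ v : Matrix (PntK (K + 40)) BPt ℂ,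
    (∀ b y : BPt,
      (truncBack d r₂ β p (K + 40) (clusterStart d 0) (clusterStart d J) * v) (bIdx K y) b =
        if b = y then 1 else 0) ∧
    ∀ i ≤ J, ‖truncBack d r₂ β p (K + 40) (clusterStart d i) (clusterStart d J) * v‖ ≤
      C * Real.exp (k * (clusterStart d i - clusterStart d 0))

namespace Col

/-- The orbit of a class along the schedule. -/
def clsOrb (S : Schedule) (o : UPoint) : ℕ → UPoint
  | 0 => o
  | m + 1 => S.next m (clsOrb S o m)

theorem expo_nonneg {P : ℝ} (hP : 0 ≤ P) (t : Lbl) : 0 ≤ expo P t := by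
  have h : (5 : ℝ) ≤ Real.sqrt (25 + P * cas4 t) := by
    rw [show (5 : ℝ) = Real.sqrt 25 by rw [show (25 : ℝ) = 5 ^ 2 by norm_num, Real.sqrt_sq]; norm_num]
    exact Real.sqrt_le_sqrt (le_add_of_nonneg_right (mul_nonneg hP (Nat.cast_nonneg _)))
  unfold expo
  linarith

theorem clsOrb_periodic (S : Schedule) (o : UPoint) (m : ℕ) :
    clsOrb S o (m + S.period) = clsOrb S o m := by
  induction m with
  | zero => rw [Nat.zero_add]; exact (S.balanced (clsOrb S o) fun _ => rfl).1
  | succ m ih =>
    rw [show m + 1 + S.period = m + S.period + 1 by ring]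
    show S.next (m + S.period) (clsOrb S o (m + S.period)) = S.next m (clsOrb S o m)
    rw [ih, S.next_periodic]

theorem delta_le (S : Schedule) : S.δ ≤ 20 := by
  have hb : (![1, 1, 0] : Lbl) ∈ band := mem_band_mk3 (t := (1, 1, 0)) rfl
  let u : UPoint := ⟨![1, 1, 0], fun _ => 0, hb, fun k => umult_pos _⟩
  have h := (S.balanced (clsOrb S u) fun _ => rfl).2
  have h0 : 0 ≤ ∑ m ∈ Finset.range S.period, expo (27 / 4) (clsOrb S u (m + 1)).lbl :=
    Finset.sum_nonneg fun m _ => expo_nonneg (by norm_num) _
  have hp : (0 : ℝ) < S.period := by exact_mod_cast S.period_pos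
  by_contra hc
  push Not at hc
  nlinarith

theorem sum_dwell_le (d : PathData) (N : ℕ) :
    ∑ m ∈ Finset.range N, ((d.j₀ + m : ℕ) : ℝ) ^ 5 ≤ clusterStart d N - clusterStart d 0 := by
  induction N with
  | zero => simp
  | succ N ih =>
    rw [Finset.sum_range_succ]
    have h1 : 0 ≤ planDur (d.plan (d.j₀ + N)) / speed (d.j₀ + N) := by
      refine div_nonneg (List.sum_nonneg fun x hx => ?_) (by unfold speed; positivity)
      obtain ⟨σ, -, rfl⟩ := List.mem_map.1 hx
      unfold StagePlan.dur
      positivity
    have h2 : clusterStart d (N + 1) = clusterStart d N +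
        planDur (d.plan (d.j₀ + N)) / speed (d.j₀ + N) + ((d.j₀ + N : ℕ) : ℝ) ^ 5 := rfl
    linarith

/-- The product of the maps of the clusters `i, …, J - 1`. -/
def tailProd {n : Type*} [Fintype n] [DecidableEq n] (A : ℕ → Matrix n n ℂ) : ℕ → ℕ → Matrix n n ℂ
  | _, 0 => 1
  | i, k + 1 => A i * tailProd A (i + 1) k

/-- The inverse of the product of the maps of the clusters `0, …, i - 1`. -/
def headInv {n : Type*} [Fintype n] [DecidableEq n] (A : ℕ → Matrix n n ℂ) : ℕ → Matrix n n ℂ
  | 0 => 1
  | i + 1 => (A i)⁻¹ * headInv A i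

theorem headInv_tail {n : Type*} [Fintype n] [DecidableEq n] (A : ℕ → Matrix n n ℂ) {J : ℕ}
    (hA : ∀ i < J, IsUnit (A i)) :
    ∀ i ≤ J, headInv A i * tailProd A 0 J = tailProd A i (J - i) := by
  intro i
  induction i with
  | zero => intro _; simp [headInv]
  | succ i ih =>
    intro hi
    rw [headInv, mul_assoc, ih (by omega), show J - i = J - (i + 1) + 1 by omega]
    show (A i)⁻¹ * (A i * tailProd A (i + 1) (J - (i + 1))) = _
    rw [← mul_assoc, Matrix.nonsing_inv_mul _ ((Matrix.isUnit_iff_isUnit_det _).1 (hA i (by omega))),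
      one_mul]

theorem mul_cancel_mid {m n : Type*} [Fintype n] [DecidableEq n] (L : Matrix m n ℂ)
    (H : Matrix n n ℂ) {G G' : Matrix n n ℂ} (B : Matrix n n ℂ) (h : G * G' = 1) :
    L * (H * G) * (G' * B) = L * (H * B) := by
  rw [Matrix.mul_assoc, mul_assoc H, ← mul_assoc G, h, one_mul]

theorem tail_isUnit {n : Type*} [Fintype n] [DecidableEq n] (A : ℕ → Matrix n n ℂ) :
    ∀ (k i : ℕ), (∀ m < i + k, IsUnit (A m)) → IsUnit (tailProd A i k)
  | 0, _, _ => isUnit_one
  | k + 1, i, h => (h i (by omega)).mul (tail_isUnit A k (i + 1) fun m hm => h m (by omega))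

end Col

open Col in
theorem exists_columns (S : Schedule) : ∃ R : ℕ, ∃ j₁ : ℕ,
    ∀ (d : PathData) (r₂ β φ₀ : ℝ), S.Adm R d r₂ β φ₀ → j₁ ≤ d.j₀ →
      ∃ C : ℝ, HasColumns d r₂ β C (20 - S.δ / 2) := by
  classical
  let _ : Fintype UPoint := Fintype.ofFinite _
  obtain ⟨R, hR⟩ := exists_cluster_chain S
  obtain ⟨C0, j₁, hC0, hchain⟩ := hR R le_rfl
  obtain ⟨C1, hC1, hlast⟩ := clusterExp_last S R
  obtain ⟨j₂, hlast⟩ := hlast (S.δ / 8) (by linarith [S.δ_pos])
  refine ⟨R, max j₁ j₂, fun d r₂ β φ₀ hA hj => ?_⟩
  set Lmax := ∑ j ∈ Finset.range S.period, ((S.cd j).len : ℝ) with hLmax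
  set c := C0 + (Lmax + 1) * C1 with hc
  set f : UPoint → ℕ → ℝ := fun o m => expo (27 / 4) (clsOrb S o (m + 1)).lbl + S.δ / 8 with hf
  have hgrow : ∀ o : UPoint, ∃ C : ℝ, ∀ N, ∑ m ∈ Finset.range N,
      (((d.j₀ + m : ℕ) : ℝ) ^ 5 * f o m + c * ((d.j₀ + m : ℕ) : ℝ) ^ 4) ≤
        C + (20 - S.δ / 2) * ∑ m ∈ Finset.range N, ((d.j₀ + m : ℕ) : ℝ) ^ 5 := by
    intro o
    obtain ⟨C, hC⟩ := growth_exponent (f := f o) (τ := fun m => ((d.j₀ + m : ℕ) : ℝ) ^ 5)
      (err := fun m => c * ((d.j₀ + m : ℕ) : ℝ) ^ 4) S.period_pos (k := 20 - S.δ / 8)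
      (δ := 3 * S.δ / 4) (A := (∑ t ∈ band, expo (27 / 4) t) + S.δ + 20)
      (by linarith [S.δ_pos])
      (fun m => by
        simp only [hf]
        rw [show m + S.period + 1 = m + 1 + S.period by ring, clsOrb_periodic])
      (by
        have h := (S.balanced (clsOrb S o) fun _ => rfl).2
        simp only [hf, Finset.sum_add_distrib, Finset.sum_const, Finset.card_range, nsmul_eq_mul]
        linarith)
      (fun m => by
        have h1 := Finset.single_le_sum (f := fun t => expo (27 / 4) t)
          (fun t _ => expo_nonneg (by norm_num) t) (clsOrb S o (m + 1)).mem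
        rw [abs_of_nonneg (add_nonneg (expo_nonneg (by norm_num) _) (by linarith [S.δ_pos]))]
        linarith [S.δ_pos])
      (by
        have h1 : 0 ≤ ∑ t ∈ band, expo (27 / 4) t :=
          Finset.sum_nonneg fun t _ => expo_nonneg (by norm_num) t
        rw [abs_le]
        constructor <;> linarith [S.δ_pos, delta_le S])
      (fun a b hab => pow_le_pow_left₀ (Nat.cast_nonneg _) (by exact_mod_cast (by omega)) 5)
      (fun m => by positivity) (poly_err d.j₀ c)
    refine ⟨C, fun N => ?_⟩
    have h := hC N
    rw [show (20 : ℝ) - S.δ / 8 - 3 * S.δ / 4 / 2 = 20 - S.δ / 2 by ring] at h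
    exact h
  choose Co hCo using hgrow
  refine ⟨2 * ∑ o : UPoint, Real.exp (Co o), fun J K => ?_⟩
  obtain ⟨p, q, D, hp, -, hq, hstep⟩ :=
    hchain d r₂ β φ₀ hA ((le_max_left _ _).trans hj) J K
  set A : ℕ → Matrix BPt BPt ℂ := fun i =>
    D i * clusterMono d r₂ β p (S.cd (d.j₀ + i)) i with hAdef
  have hAu : ∀ i < J, IsUnit (A i) := fun i hi => (hstep i hi).2.1.mul (hstep i hi).1
  have hgood := hA.good
  have hmono := (clusterStart_bounds hgood).1.monotone
  have hstart : ∀ i, startTime r₂ ≤ clusterStart d i := fun i => by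
    have h1 : startTime r₂ ≤ clusterStart d 0 := by
      have := hgood.pre_late
      simp only [clusterStart, startTime]
      linarith
    exact h1.trans (hmono i.zero_le)
  have hback : ∀ k i, i + k = J →
      truncBack d r₂ β p (K + 40) (clusterStart d i) (clusterStart d J) * colLift K (q J) =
        colLift K (q i) * tailProd A i k := by
    intro k
    induction k with
    | zero =>
      intro i hi
      rw [show i = J by omega]
      rw [Decay.back_self hgood hp (K + 40) (hstart J), Matrix.one_mul]
      simp [tailProd]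
    | succ k ih =>
      intro i hi
      rw [truncBack_trans hgood hp (K + 40) (hstart i) (hmono i.le_succ) (hmono (by omega)),
        Matrix.mul_assoc, ih (i + 1) (by omega), ← Matrix.mul_assoc,
        (hstep i (by omega)).2.2.2.2, Matrix.mul_assoc]
      rfl
  set G := tailProd A 0 J with hG
  have hGu : G * G⁻¹ = 1 := Matrix.mul_nonsing_inv _ ((Matrix.isUnit_iff_isUnit_det _).1
    (tail_isUnit A J 0 fun m hm => hAu m (by omega)))
  have hv : ∀ i ≤ J, truncBack d r₂ β p (K + 40) (clusterStart d i) (clusterStart d J) *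
      (colLift K (q J) * (G⁻¹ * adaptBasisᴴ)) = colLift K (q i) * (headInv A i * adaptBasisᴴ) := by
    intro i hi
    rw [← Matrix.mul_assoc, hback (J - i) i (by omega), ← headInv_tail A hAu i hi]
    exact mul_cancel_mid _ _ _ hGu
  refine ⟨p, hp, colLift K (q J) * (G⁻¹ * adaptBasisᴴ), fun b y => ?_, fun i hi => ?_⟩
  · rw [hv 0 J.zero_le, Matrix.mul_apply]
    simp only [colLift_band, headInv, Matrix.one_mul]
    rw [← Matrix.mul_apply, adapt_mul_conj, Matrix.one_apply]
    exact if_congr eq_comm rfl rfl
  · rw [hv i hi]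
    refine (Matrix.l2_opNorm_mul _ _).trans ?_
    have hhead : ‖headInv A i‖ ≤
        (∑ o : UPoint, Real.exp (Co o)) *
          Real.exp ((20 - S.δ / 2) * (clusterStart d i - clusterStart d 0)) := by
      calc ‖headInv A i‖ = ‖∑ o : UPoint, headInv A i * sibProj uOf o‖ := by
            rw [← Finset.mul_sum, sum_proj, mul_one]
        _ ≤ ∑ o : UPoint, ‖headInv A i * sibProj uOf o‖ := norm_sum_le _ _
        _ ≤ _ := by
          rw [Finset.sum_mul]
          refine Finset.sum_le_sum fun o _ => ?_
          have hper : ∀ m, S.next (d.j₀ + m) = S.next m := fun m => by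
            rw [← Function.Periodic.map_mod_nat (f := S.next) S.next_periodic (d.j₀ + m),
              ← Function.Periodic.map_mod_nat (f := S.next) S.next_periodic m, Nat.add_mod,
              hA.aligned, Nat.zero_add, Nat.mod_mod]
          have hpb := path_bound
            (S := fun m (X : Matrix BPt BPt ℂ) => if m < i then (A m)⁻¹ * X else 0)
            (g := fun m u => ((d.j₀ + m : ℕ) : ℝ) ^ 5 *
              (expo (27 / 4) (S.next m u).lbl + S.δ / 8) + c * ((d.j₀ + m : ℕ) : ℝ) ^ 4)
            (cls := fun u => {X | sibProj uOf u * X = X}) (π := fun m u => S.next m u)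
            (v := fun m => if m ≤ i then headInv A m * sibProj uOf o else 0) (o := clsOrb S o)
            (fun m u X hX => ?_) (fun m => ?_) (fun m => rfl) (by simp [headInv, clsOrb, proj_idem]) i
          · simp only [le_refl, if_true, Nat.zero_le, headInv, one_mul] at hpb
            refine hpb.2.trans ?_
            refine (mul_le_mul_of_nonneg_left (sibProj_norm_le _ _) (Real.exp_pos _).le).trans ?_
            rw [mul_one, ← Real.exp_add]
            refine Real.exp_le_exp.2 ((hCo o i).trans ?_)
            have := delta_le S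
            exact add_le_add le_rfl
              (mul_le_mul_of_nonneg_left (sum_dwell_le d i) (by linarith [S.δ_pos]))
          · by_cases hm : m < i
            · obtain ⟨hMu, hDu, hDs, hDn, -⟩ := hstep m (by omega)
              simp only [if_pos hm]
              set M := clusterMono d r₂ β p (S.cd (d.j₀ + m)) m
              have hAi : (A m)⁻¹ = M⁻¹ * (D m)⁻¹ := Matrix.mul_inv_rev _ _
              have hcomm : sibProj uOf u * (D m)⁻¹ = (D m)⁻¹ * sibProj uOf u :=
                proj_comm_of_sibPart
                  (sibPart_inv uOf ((Matrix.isUnit_iff_isUnit_det _).1 hDu) hDs) u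
              have hMi : M⁻¹ * sibProj uOf u = sibProj uOf (S.next m u) * M⁻¹ := by
                refine inv_mul_proj hMu ((S.cd (d.j₀ + m)).spec.perm _) (nx := S.next m) ?_ ?_ u
                · intro w; rw [← hper]; exact S.π_next _ w
                · intro w; rw [← hper]; exact S.next_π _ w
              have key : (A m)⁻¹ * X = sibProj uOf (S.next m u) * M⁻¹ * ((D m)⁻¹ * X) := by
                conv_lhs => rw [← show sibProj uOf u * X = X from hX]
                rw [hAi, mul_assoc, ← mul_assoc (D m)⁻¹, ← hcomm, mul_assoc, ← mul_assoc M⁻¹, hMi]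
              refine ⟨?_, ?_⟩
              · show sibProj uOf (S.next m u) * ((A m)⁻¹ * X) = (A m)⁻¹ * X
                rw [key, ← mul_assoc, ← mul_assoc (sibProj uOf (S.next m u)), proj_idem]
              · rw [key]
                refine (Matrix.l2_opNorm_mul _ _).trans ?_
                obtain ⟨hk1, hk2⟩ :=
                  hlast d r₂ β φ₀ hA ((le_max_right _ _).trans hj) p hp m
                set cdm := S.cd (d.j₀ + m)
                have hlen : cdm.specs.length = cdm.len := by simp [ClusterData.specs]
                have hMn := proj_inv_clusterProd_le (l := cdm.specs)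
                  (a := clusterExp d r₂ β p cdm m) cdm.spec.mono
                  (fun k hk t ht => hk1 k (by omega) t ht) (S.next m u)
                rw [hlen] at hMn
                have hlast' := (abs_le.1 (hk2 (S.next m u).lbl (S.next m u).mem)).2
                have hL : (cdm.len : ℝ) ≤ Lmax := by
                  have h1 : cdm = S.cd ((d.j₀ + m) % S.period) :=
                    (Function.Periodic.map_mod_nat (f := S.cd) S.periodic _).symm
                  rw [h1]
                  exact Finset.single_le_sum (f := fun j => ((S.cd j).len : ℝ))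
                    (fun j _ => Nat.cast_nonneg _)
                    (Finset.mem_range.2 (Nat.mod_lt _ S.period_pos))
                have hj1 : (1 : ℝ) ≤ ((d.j₀ + m : ℕ) : ℝ) ^ 4 :=
                  one_le_pow₀ (by exact_mod_cast (show 1 ≤ d.j₀ + m by have := hgood.j₀_pos; omega))
                have herr : C0 * errSize (d.j₀ + m) ≤ C0 * ((d.j₀ + m : ℕ) : ℝ) ^ 4 := by
                  refine mul_le_mul_of_nonneg_left (le_trans ?_ hj1) hC0.le
                  unfold errSize
                  rw [Real.exp_le_one_iff]
                  linarith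
                calc ‖sibProj uOf (S.next m u) * M⁻¹‖ * ‖(D m)⁻¹ * X‖
                    ≤ Real.exp (clusterExp d r₂ β p cdm m cdm.len (S.next m u).lbl +
                        cdm.len * (C1 * ((d.j₀ + m : ℕ) : ℝ) ^ 4)) *
                      (Real.exp (C0 * errSize (d.j₀ + m)) * ‖X‖) := by
                      refine mul_le_mul hMn ?_ (norm_nonneg _) (Real.exp_pos _).le
                      exact (Matrix.l2_opNorm_mul _ _).trans
                        (mul_le_mul_of_nonneg_right hDn (norm_nonneg _))
                  _ ≤ _ := by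
                      rw [← mul_assoc, ← Real.exp_add]
                      refine mul_le_mul_of_nonneg_right (Real.exp_le_exp.2 ?_) (norm_nonneg _)
                      have h3 := mul_le_mul_of_nonneg_right hL
                        (mul_nonneg hC1.le (le_trans zero_le_one hj1))
                      rw [hc]
                      linarith
            · simp only [if_neg hm]
              exact ⟨by simp, by simpa using mul_nonneg (Real.exp_pos _).le (norm_nonneg X)⟩
          · rcases lt_trichotomy m i with h | h | h
            · simp [h, h.le, Nat.succ_le_of_lt h, headInv, mul_assoc]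
            · simp [h]
            · simp only [if_neg h.asymm, if_neg (show ¬ m + 1 ≤ i by omega)]
    calc ‖colLift K (q i)‖ * ‖headInv A i * adaptBasisᴴ‖ ≤
          2 * ((∑ o : UPoint, Real.exp (Co o)) *
            Real.exp ((20 - S.δ / 2) * (clusterStart d i - clusterStart d 0))) := by
          refine mul_le_mul (colLift_norm_le K _ (hq i hi)) ?_ (norm_nonneg _) (by norm_num)
          refine (Matrix.l2_opNorm_mul _ _).trans ?_
          refine le_trans (mul_le_of_le_one_right (norm_nonneg _) ?_) hhead
          rw [Matrix.l2_opNorm_conjTranspose]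
          exact norm_adapt_le
      _ = _ := by ring

end Vale.Agent.P225
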