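import Vale.Agent.P225.Assembly.Schedule
import Vale.Agent.P225.System.Decay
import Vale.Agent.P225.Cluster.Eta
import Vale.Agent.P225.Cluster.Chain
import Vale.Agent.P225.Stage.Real

/-!
P225, assembly: the intended map of a segment, the residual of a segment, and the blocks of a
cluster. For any parameters `rawMap` is the intended product corrected by the residuals; it is the
true backward map as soon as every stage hits its target.
-/

noncomputable section

namespace Vale.Agent.P225

open Matrix SU2 NormedSpace MeasureTheory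
open scoped ComplexOrder Matrix.Norms.L2Operator

/-- A band point inside the truncation `K + 40`. -/
def bIdx (K : ℕ) (x : BPt) : PntK (K + 40) := x.toK (by omega)

/-- The embedding of the band rows, in the adapted basis. -/
def bandLift (K : ℕ) : Matrix (PntK (K + 40)) BPt ℂ :=
  (1 : Op (PntK (K + 40))).submatrix id (bIdx K) * adaptBasis

/-- The embedding of the other rows. -/
def qLift (K : ℕ) : Matrix (PntK (K + 40)) (QPt (K + 40)) ℂ :=
  (1 : Op (PntK (K + 40))).submatrix id fun x => x.1

variable (d : PathData) (r₂ β : ℝ)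

/-- Nodes between the diagonal factors of a cluster. -/
def expNode (len i : ℕ) : ℕ → ℝ
  | 0 => clusterStart d i
  | k + 1 => if k < len then ctrlStart d i k else clusterStart d (i + 1)

/-- The diagonal exponents of a cluster, set to zero off the band. -/
def clusterExp (p : Param) (c : ClusterData) (i : ℕ) : ℕ → Lbl → ℝ := fun k t =>
  if t ∈ band then
    (if k ≤ c.len then freeDecay d r₂ β (expNode d c.len i k) (expNode d c.len i (k + 1)) t else 0)
      + if h : k < c.len then stageShift d r₂ β p (c.stage ⟨k, h⟩).spec.gauge i k t else 0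
  else 0

/-- The intended map of a segment: the target on the band, the reference on the other points. -/
def idealSeg (p : Param) (K i l : ℕ) (s : StageSpec) (z : ℂ) : Op (PntK (K + 40)) := fun x y =>
  if lab x.out ∈ band then
    if lab y.out ∈ band then
      ((Real.exp (-(freeDecay d r₂ β (segStart d i l) (ctrlStart d i l) (lab x.out)) -
          stageShift d r₂ β p s.gauge i l (lab x.out)) : ℝ) : ℂ) *
        gaugeEntry s.gauge (extBlk (s.tgt z)) x.out y.out *
        ((Real.exp (-(freeDecay d r₂ β (ctrlStart d i l) (segEnd d i l) (lab y.out))) : ℝ) : ℂ)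
    else 0
  else if lab y.out ∈ band ∨ lab x.out = 0 ∨ lab y.out = 0 then 0
  else segBack d r₂ β p (K + 40) i l (segEnd d i l) x y

/-- The residual factor of a segment. -/
def segErr (p : Param) (K i l : ℕ) : Op (PntK (K + 40)) :=
  segG (fun u => Real.exp (-∫ w in segStart d i l..u, pathDamp d w))
      (truncBack d r₂ β p (K + 40) (segStart d i l))
      (fun u => (truncBack d r₂ β p (K + 40) (segStart d i l) u)ᴴ)
      (segStart d i l) (segEnd d i l) *
    (truncW d r₂ β p (K + 40) (segStart d i l) - freeDiag d r₂ β (K + 40) (segStart d i l))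

/-- The intended map of segment `l`. -/
def idealFun (p : Param) (c : ClusterData) (K i : ℕ) (z : ℕ → ℂ) (l : ℕ) :
    Op (PntK (K + 40)) :=
  if h : l < c.len then idealSeg d r₂ β p K i l (c.stage ⟨l, h⟩).spec (z l) else 1

/-- The intended product corrected by the residuals. -/
def rawMap (p : Param) (c : ClusterData) (K i : ℕ) (z : ℕ → ℂ) : Op (PntK (K + 40)) :=
  segProd (idealFun d r₂ β p c K i z) 0 c.len -
    ∑ l ∈ Finset.range c.len, truncBack d r₂ β p (K + 40) (clusterStart d i) (segStart d i l) *
      segErr d r₂ β p K i l * segProd (idealFun d r₂ β p c K i z) l c.len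

/-- The monomial of a cluster. -/
def clusterMono (p : Param) (c : ClusterData) (i : ℕ) : Matrix BPt BPt ℂ :=
  clusterProd c.specs (clusterExp d r₂ β p c i) 0

/-- The four blocks of a cluster. -/
def clusterBlocks (p : Param) (c : ClusterData) (K i : ℕ) (z : ℕ → ℂ) :
    ClusterBlocks BPt (QPt (K + 40)) where
  M := clusterMono d r₂ β p c i
  a := (bandLift K)ᴴ * rawMap d r₂ β p c K i z * bandLift K * (clusterMono d r₂ β p c i)⁻¹
  b := (bandLift K)ᴴ * rawMap d r₂ β p c K i z * qLift K
  QS := (qLift K)ᴴ * rawMap d r₂ β p c K i z * bandLift K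
  QQ := (qLift K)ᴴ * rawMap d r₂ β p c K i z * qLift K

/-- The size of the correction of cluster `j`. -/
def corrSize (j : ℕ) : ℝ := Real.exp (-((j : ℝ) ^ 4))

variable {d}

/-- The slot values of cluster `i`. -/
def Schedule.slotVal (S : Schedule) {J : ℕ} (x : S.Vars d.j₀ J) (i : Fin J) : ℕ → ℂ := fun l =>
  (S.cd (d.j₀ + i)).slot (clusterExp d r₂ β (S.parOf x) (S.cd (d.j₀ + i)) i) l
    (corrSize (d.j₀ + i) • (x i).2)

/-- The blocks of cluster `i` at the variables `x`. -/
def Schedule.blocks (S : Schedule) {J : ℕ} (K : ℕ) (x : S.Vars d.j₀ J) (i : Fin J) :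
    ClusterBlocks BPt (QPt (K + 40)) :=
  clusterBlocks d r₂ β (S.parOf x) (S.cd (d.j₀ + i)) K i (S.slotVal r₂ β x i)

variable {r₂ β} {φ₀ : ℝ}

attribute [local irreducible] band

namespace Ideal

open Trunc

variable {n m : Type} [Fintype n] [DecidableEq n] [Fintype m] [DecidableEq m]

/-- A symmetry of the coefficient and of the start is one of the solution. -/
theorem riccati_sym {A W : ℝ → Op n} {ν : ℝ → ℝ} {a b : ℝ} {S : Op n}
    (hν : ContinuousOn ν (Set.Icc a b)) (hS : S * S = 1) (hW : IsRiccati A ν W a b)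
    (hA : ∀ t, Commute S (A t)) (h0 : Commute S (W a)) :
    ∀ t ∈ Set.Icc a b, Commute S (W t) := by
  have e : ∀ X : Op n, Commute S X → S * X * S = X := fun X h => by
    rw [h.eq, mul_assoc, hS, mul_one]
  have hW' : IsRiccati A ν (fun t => S * W t * S) a b := fun t ht => by
    refine (((hW t ht).const_mul S).mul_const S).congr_deriv ?_
    rw [mul_sub, sub_mul, mul_sub, sub_mul, e _ (hA t), mul_smul_comm, smul_mul_assoc]
    congr 2
    calc S * (W t * W t) * S = S * W t * (S * S) * W t * S := by rw [hS]; noncomm_ring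
      _ = _ := by noncomm_ring
  intro t ht
  have h : S * W t * S = W t := riccati_unique hν hW' hW (e _ h0) ht
  show S * W t = W t * S
  conv_rhs => rw [← h, mul_assoc, hS, mul_one]

/-- A symmetry of the coefficient is one of the backward map. -/
theorem back_sym {W R : ℝ → Op n} {a b : ℝ} {S : Op n} (hW : ContinuousOn W (Set.Icc a b))
    (hS : S * S = 1) (hR : IsBack W R a b) (hc : ∀ t ∈ Set.Icc a b, Commute S (W t)) :
    ∀ t ∈ Set.Icc a b, Commute S (R t) := by
  have hR' : IsBack W (fun t => S * R t * S) a b := ⟨by simp [hR.1, hS], fun t ht => by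
    refine (((hR.2 t ht).const_mul S).mul_const S).congr_deriv ?_
    rw [mul_assoc _ S (W t), (hc t ht).eq]
    noncomm_ring⟩
  intro t ht
  have h : S * R t * S = R t := back_unique hW hR' hR ht
  show S * R t = R t * S
  conv_rhs => rw [← h, mul_assoc, hS, mul_one]

omit [DecidableEq n] [DecidableEq m] in
theorem sub_mul_sub {e : m → n} (he : Function.Injective e) (M N : Op n)
    (h : ∀ x z, z ∉ Set.range e → M (e x) z = 0) :
    (M * N).submatrix e e = M.submatrix e e * N.submatrix e e := by
  ext x y
  simp only [Matrix.submatrix_apply, Matrix.mul_apply]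
  exact (Fintype.sum_of_injective e he _ _ (fun z hz => by rw [h x z hz, zero_mul])
    fun s => rfl).symm

theorem segProd_self {M : Type*} [Monoid M] (Q : ℕ → M) (k : ℕ) : segProd Q k k = 1 := by
  cases k <;> simp [segProd]

theorem segProd_succ {M : Type*} [Monoid M] (Q : ℕ → M) {k l : ℕ} (h : k ≤ l) :
    segProd Q k (l + 1) = segProd Q k l * Q l := by
  simp [segProd, h]

variable {K : ℕ}

/-- The sign of the constants. -/
def cstSign (K : ℕ) : Op (PntK K) := diagonal fun x => if lab x.out = 0 then -1 else 1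

theorem cstSign_sq : cstSign K * cstSign K = 1 := by
  rw [cstSign, diagonal_mul_diagonal, ← diagonal_one]
  congr 1
  funext x
  split_ifs <;> simp

theorem diag_commute (f g : PntK K → ℂ) : Commute (diagonal f) (diagonal g) := by
  show _ = _
  rw [diagonal_mul_diagonal, diagonal_mul_diagonal]
  simp only [mul_comm]

theorem cstSign_apply {M : Op (PntK K)} (h : Commute (cstSign K) M) {x y : PntK K}
    (hxy : lab x.out = 0 ↔ lab y.out ≠ 0) : M x y = 0 := by
  have e := congrFun (congrFun h.eq x) y
  rw [cstSign, diagonal_mul, mul_diagonal] at e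
  by_cases hx : lab x.out = 0
  · rw [if_pos hx, if_neg (hxy.1 hx)] at e
    linear_combination -(1 / 2 : ℂ) * e
  · rw [if_neg hx, if_pos (not_not.1 fun hy => hx (hxy.2 hy))] at e
    linear_combination (1 / 2 : ℂ) * e

/-- A constant is alone in its block. -/
theorem eq_zero_of_sameBlk {G : Fin 3} {x y : Pnt} (h : SameBlk G x y) (hx : lab x = 0) :
    lab y = 0 := by
  have h1 : lab y (G + 1) = 0 := by rw [← h.1, hx]; rfl
  have h2 : lab y (G + 2) = 0 := by rw [← h.2.1, hx]; rfl
  obtain ⟨-, h3, -, -⟩ := (lblOK_iff (lab y) G).1 y.1.2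
  funext k
  show lab y k = 0
  rcases fin3_cases G k with rfl | rfl | rfl
  · omega
  · exact h1
  · exact h2

theorem cstSign_gauge (G : Fin 3) (F : ∀ p, BlkMat p) :
    Commute (cstSign K) (gaugeMat K G F) := by
  ext x y
  rw [cstSign, diagonal_mul, mul_diagonal]
  by_cases h : SameBlk G x.out y.out
  · rw [mul_comm]
    congr 1
    exact if_congr ⟨eq_zero_of_sameBlk h, eq_zero_of_sameBlk h.symm⟩ rfl rfl
  · rw [show gaugeMat K G F x y = 0 from gaugeEntry_of_not h, mul_zero, zero_mul]

theorem segBack_commute (hd : d.Good r₂ β φ₀) {p : Param} (hp : InBox d p) (K i : ℕ) {l : ℕ}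
    (hl : l < (d.plan (d.j₀ + i)).length) :
    Commute (cstSign K) (segBack d r₂ β p K i l (segEnd d i l)) := by
  obtain ⟨h0, hV, -, hB⟩ := segRef_spec hd hp K i hl
  exact back_sym (riccati_cont hV) cstSign_sq hB
    (riccati_sym (Trunc.pathDamp_cont hd).continuousOn cstSign_sq hV (fun t => cstSign_gauge _ _)
      (by rw [h0]; exact diag_commute _ _)) _ ⟨Trunc.seg_le hd hl, le_rfl⟩

theorem band_ne_zero {t : Lbl} (h : t ∈ band) : t ≠ 0 := (mem_band.1 h).2.2

theorem bIdx_out (K : ℕ) (x : BPt) : (bIdx K x).out = x.1.out :=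
  Pnt.ext' (fun _ => rfl) fun _ => rfl

theorem bIdx_injective (K : ℕ) : Function.Injective (bIdx K) := fun x y h => by
  have h' := congrArg PntK.out h
  rw [bIdx_out, bIdx_out] at h'
  exact Subtype.ext (PntK.out_injective h')

theorem bIdx_surj {K : ℕ} {x : PntK (K + 40)} (h : lab x.out ∈ band) : ∃ a, bIdx K a = x := by
  have hb : ∀ k, lab x.out k < 21 := fun k => ((mem_band.1 h).lt16 k).trans (by norm_num)
  refine ⟨⟨⟨⟨fun k => ⟨lab x.out k, hb k⟩, x.1.2⟩, x.2⟩, h⟩, PntK.out_injective ?_⟩
  rw [bIdx_out]
  exact Pnt.ext' (fun _ => rfl) fun _ => rfl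

theorem adapt_eq : adaptBasis = (tessMat 20).submatrix Subtype.val Subtype.val := rfl

theorem adapt_unitary : adaptBasisᴴ * adaptBasis = 1 ∧ adaptBasis * adaptBasisᴴ = 1 := by
  suffices h : adaptBasisᴴ * adaptBasis = 1 from ⟨h, Matrix.mul_eq_one_comm_of_equiv (Equiv.refl _) |>.1 h⟩
  rw [adapt_eq, conjTranspose_submatrix,
    ← sub_mul_sub Subtype.val_injective _ _ (fun x z hz => ?_), tessMat_unitary.1,
    submatrix_one _ Subtype.val_injective]
  rw [conjTranspose_apply, tessMat_apply_ne (fun e => hz ⟨⟨z, ?_⟩, rfl⟩), star_zero]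
  have e' : lab z.out = lab x.1.out := congrArg (fun t => fun k => (t.1 k : ℕ)) e
  rw [e']
  exact x.2

theorem adapt_commute (a : Lbl → ℝ) : adaptBasis * labDiag a = labDiag a * adaptBasis := by
  ext x y
  rw [labDiag, mul_diagonal, diagonal_mul]
  by_cases h : x.1.1 = y.1.1
  · rw [show lab x.1.out = lab y.1.out from congrArg (fun t => fun k => (t.1 k : ℕ)) h, mul_comm]
  · rw [show adaptBasis x y = 0 from dif_neg h, mul_zero, zero_mul]

theorem adapt_star_commute (a : Lbl → ℝ) : adaptBasisᴴ * labDiag a = labDiag a * adaptBasisᴴ := by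
  calc adaptBasisᴴ * labDiag a
      = adaptBasisᴴ * (labDiag a * adaptBasis) * adaptBasisᴴ := by
        simp only [mul_assoc, adapt_unitary.2, mul_one]
    _ = adaptBasisᴴ * adaptBasis * labDiag a * adaptBasisᴴ := by
        rw [← adapt_commute]; simp only [mul_assoc]
    _ = _ := by rw [adapt_unitary.1, one_mul]

theorem labDiag_add (a b : Lbl → ℝ) : labDiag a * labDiag b = labDiag fun t => a t + b t := by
  rw [labDiag, labDiag, labDiag, diagonal_mul_diagonal]
  congr 1
  funext x
  rw [← Complex.ofReal_mul, ← Real.exp_add, neg_add]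

theorem labDiag_congr {a b : Lbl → ℝ} (h : ∀ t ∈ band, a t = b t) : labDiag a = labDiag b := by
  rw [labDiag, labDiag]
  congr 1
  funext x
  rw [h _ x.2]

theorem labDiag_zero {a : Lbl → ℝ} (h : ∀ t ∈ band, a t = 0) : labDiag a = 1 := by
  rw [labDiag_congr (b := fun _ => 0) h, labDiag]
  simp

/-- The band block in the adapted basis. -/
def bandBlock (K : ℕ) (M : Op (PntK (K + 40))) : Matrix BPt BPt ℂ :=
  adaptBasisᴴ * M.submatrix (bIdx K) (bIdx K) * adaptBasis

/-- No entries between band and other points. -/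
def BandDiag {K : ℕ} (M : Op (PntK (K + 40))) : Prop :=
  ∀ x y, ¬(lab x.out ∈ band ↔ lab y.out ∈ band) → M x y = 0

theorem BandDiag.one : BandDiag (1 : Op (PntK (K + 40))) := fun x y h =>
  Matrix.one_apply_ne fun e => h (by rw [e])

theorem BandDiag.mul {M N : Op (PntK (K + 40))} (hM : BandDiag M) (hN : BandDiag N) :
    BandDiag (M * N) := fun x y h => by
  rw [Matrix.mul_apply]
  refine Finset.sum_eq_zero fun z _ => ?_
  by_cases hz : lab x.out ∈ band ↔ lab z.out ∈ band
  · rw [hN z y fun e => h (hz.trans e), mul_zero]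
  · rw [hM x z hz, zero_mul]

theorem bandBlock_one : bandBlock K 1 = 1 := by
  rw [bandBlock, submatrix_one _ (bIdx_injective K), mul_one, adapt_unitary.1]

theorem bandBlock_mul {M : Op (PntK (K + 40))} (hM : BandDiag M) (N : Op (PntK (K + 40))) :
    bandBlock K (M * N) = bandBlock K M * bandBlock K N := by
  unfold bandBlock
  rw [sub_mul_sub (bIdx_injective K) M N fun x z hz => hM _ _ fun e => ?_]
  · conv_lhs => rw [← mul_one (M.submatrix (bIdx K) (bIdx K)), ← adapt_unitary.2]
    simp only [mul_assoc]
  · obtain ⟨a, ha⟩ := bIdx_surj (e.1 (by rw [bIdx_out]; exact x.2))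
    exact hz ⟨a, ha⟩

theorem one_sub_mul {α : Type} [Fintype α] (e : α → PntK (K + 40)) {β : Type} [Fintype β]
    (f : β → PntK (K + 40)) (M : Op (PntK (K + 40))) :
    ((1 : Op (PntK (K + 40))).submatrix id e)ᴴ * M * (1 : Op (PntK (K + 40))).submatrix id f =
      M.submatrix e f := by
  ext x y
  simp [Matrix.mul_apply, Matrix.one_apply]

theorem lift_eq (M : Op (PntK (K + 40))) :
    (bandLift K)ᴴ * M * bandLift K = bandBlock K M := by
  rw [bandLift, bandBlock, conjTranspose_mul, ← one_sub_mul (bIdx K) (bIdx K) M]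
  simp only [Matrix.mul_assoc]

theorem lift_off {M : Op (PntK (K + 40))} (hM : BandDiag M) :
    (bandLift K)ᴴ * M * qLift K = 0 ∧ (qLift K)ᴴ * M * bandLift K = 0 := by
  have h1 : M.submatrix (bIdx K) (fun x : QPt (K + 40) => x.1) = 0 := by
    ext x y
    exact hM _ _ fun e => y.2.1 (e.1 (by rw [bIdx_out]; exact x.2))
  have h2 : M.submatrix (fun x : QPt (K + 40) => x.1) (bIdx K) = 0 := by
    ext x y
    exact hM _ _ fun e => x.2.1 (e.2 (by rw [bIdx_out]; exact y.2))
  constructor
  · rw [bandLift, qLift, conjTranspose_mul, Matrix.mul_assoc adaptBasisᴴ,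
      Matrix.mul_assoc adaptBasisᴴ, one_sub_mul, h1, Matrix.mul_zero]
  · rw [bandLift, qLift, ← Matrix.mul_assoc, one_sub_mul, h2, Matrix.zero_mul]

theorem idealSeg_bandDiag (p : Param) (K i l : ℕ) (s : StageSpec) (z : ℂ) :
    BandDiag (idealSeg d r₂ β p K i l s z) := fun x y h => by
  rw [idealSeg]
  by_cases hx : lab x.out ∈ band
  · rw [if_pos hx, if_neg fun hy => h (iff_of_true hx hy)]
  · rw [if_neg hx, if_pos (Or.inl (not_not.1 fun hy => h (iff_of_false hx hy)))]

theorem idealSeg_band (p : Param) (K i l : ℕ) (s : StageSpec) (z : ℂ) :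
    bandBlock K (idealSeg d r₂ β p K i l s z) =
      labDiag (fun t => freeDecay d r₂ β (segStart d i l) (ctrlStart d i l) t +
          stageShift d r₂ β p s.gauge i l t) *
        s.bandMat z * labDiag (freeDecay d r₂ β (ctrlStart d i l) (segEnd d i l)) := by
  set a : Lbl → ℝ := fun t => freeDecay d r₂ β (segStart d i l) (ctrlStart d i l) t +
    stageShift d r₂ β p s.gauge i l t
  set b : Lbl → ℝ := freeDecay d r₂ β (ctrlStart d i l) (segEnd d i l)
  have e : (idealSeg d r₂ β p K i l s z).submatrix (bIdx K) (bIdx K) = labDiag a *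
      (Matrix.of fun x y : BPt => gaugeEntry s.gauge (extBlk (s.tgt z)) x.1.out y.1.out) *
        labDiag b := by
    ext x y
    rw [Matrix.submatrix_apply, idealSeg, bIdx_out, bIdx_out, if_pos x.2, if_pos y.2, labDiag,
      labDiag, mul_diagonal, diagonal_mul, Matrix.of_apply]
    simp only [a, b, neg_add, sub_eq_add_neg]
  rw [bandBlock, e, StageSpec.bandMat, bandOf]
  simp only [← mul_assoc]
  rw [adapt_star_commute]
  simp only [mul_assoc]
  rw [← adapt_commute]

theorem freeDecay_add (hd : d.Good r₂ β φ₀) {a b c : ℝ} (ha : startTime r₂ ≤ a)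
    (hb : startTime r₂ ≤ b) (hc : startTime r₂ ≤ c) (t : Lbl) :
    freeDecay d r₂ β a b t + freeDecay d r₂ β b c t = freeDecay d r₂ β a c t := by
  have hi : ∀ u v : ℝ, startTime r₂ ≤ u → startTime r₂ ≤ v →
      IntervalIntegrable (freeRate d r₂ β t) volume u v := fun u v hu hv =>
    ContinuousOn.intervalIntegrable fun w hw =>
      ((freeRate_spec hd t).2 w ((le_min hu hv).trans hw.1)).continuousAt.continuousWithinAt
  exact intervalIntegral.integral_add_adjacent_intervals (hi a b ha hb) (hi b c hb hc)

theorem plan_length {S : Schedule} {R : ℕ} (h : S.Adm R d r₂ β φ₀) (i : ℕ) :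
    (d.plan (d.j₀ + i)).length = (S.cd (d.j₀ + i)).len := by
  simp [h.plan_eq, Schedule.plan, ClusterData.stagePlan]

theorem plan_gauge {S : Schedule} {R : ℕ} (h : S.Adm R d r₂ β φ₀) (i l : ℕ)
    (hl : l < (S.cd (d.j₀ + i)).len) (hl' : l < (d.plan (d.j₀ + i)).length) :
    ((d.plan (d.j₀ + i))[l]).gauge = ((S.cd (d.j₀ + i)).stage ⟨l, hl⟩).spec.gauge := by
  simp [h.plan_eq, Schedule.plan, ClusterData.stagePlan]

theorem segBack_band' (hd : d.Good r₂ β φ₀) {p : Param} (hp : InBox d p) {K i l : ℕ}
    (hl : l < (d.plan (d.j₀ + i)).length) {G : Fin 3} (hG : ((d.plan (d.j₀ + i))[l]).gauge = G)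
    (x : BPt) (y : PntK (K + 40)) :
    segBack d r₂ β p (K + 40) i l (segEnd d i l) (bIdx K x) y =
        ((Real.exp (-(freeDecay d r₂ β (segStart d i l) (ctrlStart d i l) (lab x.1.out)) -
              stageShift d r₂ β p G i l (lab x.1.out)) : ℝ) : ℂ) *
          gaugeEntry G (extBlk (stageNorm d r₂ β p G i l)) x.1.out y.out *
          ((Real.exp (-(freeDecay d r₂ β (ctrlStart d i l) (segEnd d i l) (lab y.out))) : ℝ) : ℂ) ∧
      segBack d r₂ β p (K + 40) i l (segEnd d i l) y (bIdx K x) =
        ((Real.exp (-(freeDecay d r₂ β (segStart d i l) (ctrlStart d i l) (lab y.out)) -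
              stageShift d r₂ β p G i l (lab x.1.out)) : ℝ) : ℂ) *
          gaugeEntry G (extBlk (stageNorm d r₂ β p G i l)) y.out x.1.out *
          ((Real.exp (-(freeDecay d r₂ β (ctrlStart d i l) (segEnd d i l) (lab x.1.out))) : ℝ) : ℂ) := by
  subst hG
  exact segBack_band hd hp (Nat.le_add_left _ _) i hl x y

/-- The projection to the nonconstant points. -/
def ncProj (K : ℕ) : Op (PntK K) := diagonal fun x => if lab x.out = 0 then 0 else 1

theorem ncProj_commute {M : Op (PntK K)} (h : Commute (cstSign K) M) : Commute (ncProj K) M := by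
  ext x y
  rw [ncProj, diagonal_mul, mul_diagonal, mul_comm]
  by_cases hxy : lab x.out = 0 ↔ lab y.out = 0
  · rw [if_congr hxy rfl rfl]
  · rw [cstSign_apply h (by tauto), zero_mul, zero_mul]

theorem mul_ncProj_apply (M : Op (PntK K)) (x y : PntK K) (hy : lab y.out ≠ 0) :
    (M * ncProj K) x y = M x y := by
  rw [ncProj, mul_diagonal, if_neg hy, mul_one]

/-- Away from the constants a hit stage equals its target. -/
theorem ideal_eq {S : Schedule} {R : ℕ} (h : S.Adm R d r₂ β φ₀) {p : Param} (hp : InBox d p)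
    (K i : ℕ) (z : ℕ → ℂ) (l : ℕ) (hl : l < (S.cd (d.j₀ + i)).len)
    (hhit : stageNorm d r₂ β p ((S.cd (d.j₀ + i)).stage ⟨l, hl⟩).spec.gauge i l =
      ((S.cd (d.j₀ + i)).stage ⟨l, hl⟩).spec.tgt (z l)) :
    idealFun d r₂ β p (S.cd (d.j₀ + i)) K i z l * ncProj (K + 40) =
      segBack d r₂ β p (K + 40) i l (segEnd d i l) * ncProj (K + 40) := by
  ext x y
  by_cases hy : lab y.out = 0
  · simp [ncProj, mul_diagonal, hy]
  rw [mul_ncProj_apply _ x y hy, mul_ncProj_apply _ x y hy, idealFun, dif_pos hl]
  set s := ((S.cd (d.j₀ + i)).stage ⟨l, hl⟩).spec with hs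
  have hmem : s ∈ List.ofFn fun l => ((S.cd (d.j₀ + i)).stage l).spec :=
    List.mem_ofFn.2 ⟨⟨l, hl⟩, rfl⟩
  have hl' : l < (d.plan (d.j₀ + i)).length := by rwa [plan_length h]
  have hb := segBack_band' h.good hp (K := K) hl' (plan_gauge h i l hl hl')
  rw [← hs] at hb
  rw [idealSeg]
  by_cases hx : lab x.out ∈ band
  · obtain ⟨a, rfl⟩ := bIdx_surj hx
    rw [(hb a y).1, hhit, if_pos hx, bIdx_out]
    by_cases hyb : lab y.out ∈ band
    · rw [if_pos hyb]
    · rw [if_neg hyb, ((S.cd (d.j₀ + i)).spec.closed s hmem (z l) a y.out hyb).1]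
      simp
  rw [if_neg hx]
  by_cases hyb : lab y.out ∈ band
  · obtain ⟨a, rfl⟩ := bIdx_surj hyb
    rw [(hb a x).2, hhit, if_pos (Or.inl hyb),
      ((S.cd (d.j₀ + i)).spec.closed s hmem (z l) a x.out hx).2]
    simp
  by_cases hx0 : lab x.out = 0
  · rw [if_pos (Or.inr (Or.inl hx0)),
      cstSign_apply (segBack_commute h.good hp _ i hl') (iff_of_true hx0 hy)]
  · rw [if_neg (by tauto)]

theorem segProd_congr_right {M : Type*} [Monoid M] {I Q : ℕ → M} {P : M} {k n : ℕ} (hk : k ≤ n)
    (hI : ∀ l, k ≤ l → l < n → I l * P = Q l * P)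
    (hQ : ∀ l, k ≤ l → l < n → Commute P (Q l)) :
    segProd I k n * P = segProd Q k n * P := by
  induction n, hk using Nat.le_induction with
  | base => rw [segProd_self, segProd_self]
  | succ n hn ih =>
    have e : Q n * P = P * Q n := (hQ n hn n.lt_succ_self).eq.symm
    rw [segProd_succ I hn, segProd_succ Q hn, mul_assoc, hI n hn n.lt_succ_self, e, ← mul_assoc,
      ih (fun l a b => hI l a (b.trans n.lt_succ_self)) fun l a b => hQ l a (b.trans n.lt_succ_self),
      mul_assoc, ← e, ← mul_assoc]

/-- One segment of the backward map: the reference corrected by the residual. -/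
theorem truncBack_seg (hd : d.Good r₂ β φ₀) {p : Param} (hp : InBox d p) (K i : ℕ) {l : ℕ}
    (hl : l < (d.plan (d.j₀ + i)).length) :
    truncBack d r₂ β p (K + 40) (segStart d i l) (segEnd d i l) =
      (1 - segErr d r₂ β p K i l) * segBack d r₂ β p (K + 40) i l (segEnd d i l) := by
  obtain ⟨hV0, hV, -, hB⟩ := segRef_spec hd hp (K + 40) i hl
  have hs : startTime r₂ ≤ segStart d i l := (Trunc.seg_times hd hl).2.2.2.2
  obtain ⟨hW, hWp⟩ := (truncW_spec hd hp (K + 40)).2 (segEnd d i l)
  have hR := truncBack_spec hd hp (K + 40) hs (segEnd d i l)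
  have hν : Continuous (pathDamp d) := Trunc.pathDamp_cont hd
  have hab : segStart d i l ≤ segEnd d i l := Trunc.seg_le hd hl
  have := back_segment (W := truncW d r₂ β p (K + 40)) (V := segRef d r₂ β p (K + 40) i l)
    (A := truncOp d p (K + 40)) (R := truncBack d r₂ β p (K + 40) (segStart d i l))
    (P := fun u => (truncBack d r₂ β p (K + 40) (segStart d i l) u)ᴴ)
    (Q := segBack d r₂ β p (K + 40) i l) (ν := pathDamp d)
    (e := fun u => Real.exp (-∫ w in segStart d i l..u, pathDamp d w))
    (a := segStart d i l) (b := segEnd d i l) hν.continuousOn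
    (fun t ht => hW t ⟨hs.trans ht.1, ht.2⟩) hV hR.2
    (fun t ht => by
      have h := (hR.2 t ht).star
      rw [star_neg, star_mul] at h
      have e : star (truncW d r₂ β p (K + 40) t) = truncW d r₂ β p (K + 40) t :=
        (hWp t ⟨hs.trans ht.1, ht.2⟩).isHermitian
      rw [e] at h
      exact h)
    hB.2
    (fun t _ => by
      refine ((hν.integral_hasStrictDerivAt (segStart d i l) t).hasDerivAt.neg.exp).congr_deriv ?_
      simp only [Pi.neg_apply]
      ring)
    (by simp) hR.1 (by simp [hR.1]) hB.1 (segEnd d i l) ⟨hab, le_rfl⟩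
  rw [this, hV0, segErr, sub_mul, one_mul]

end Ideal

open Vale.Agent.P225.Ideal Vale.Agent.P225.Trunc

/-- Points with label zero are decoupled. -/
theorem truncBack_const (hd : d.Good r₂ β φ₀) {p : Param} (hp : InBox d p) (K : ℕ) {a b : ℝ}
    (ha : startTime r₂ ≤ a) (hab : a ≤ b) {x y : PntK K}
    (h : lab x.out = 0 ↔ lab y.out ≠ 0) :
    truncBack d r₂ β p K a b x y = 0 := by
  obtain ⟨h0, hW⟩ := truncW_spec hd hp K
  have hc := riccati_sym (pathDamp_cont hd).continuousOn (cstSign_sq (K := K)) (hW b).1
    (fun t => cstSign_gauge _ _) (by rw [h0]; exact diag_commute _ _)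
  exact cstSign_apply (back_sym ((riccati_cont (hW b).1).mono (Set.Icc_subset_Icc_left ha))
    cstSign_sq (truncBack_spec hd hp K ha b) (fun t ht => hc t ⟨ha.trans ht.1, ht.2⟩) b
    ⟨hab, le_rfl⟩) h

/-- On the band the intended product is the cluster product. -/
theorem idealProd_band {S : Schedule} {R : ℕ} (h : S.Adm R d r₂ β φ₀) {p : Param}
    (hp : InBox d p) (K i : ℕ) (z : ℕ → ℂ) :
    let c := S.cd (d.j₀ + i)
    let P := segProd (idealFun d r₂ β p c K i z) 0 c.len
    (bandLift K)ᴴ * P * bandLift K = clusterProd c.specs (clusterExp d r₂ β p c i) z ∧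
      (bandLift K)ᴴ * P * qLift K = 0 ∧ (qLift K)ᴴ * P * bandLift K = 0 := by
  intro c P
  have hd := h.good
  have hbd : ∀ m ≤ c.len, BandDiag (segProd (idealFun d r₂ β p c K i z) 0 m) := by
    intro m
    induction m with
    | zero => intro _; rw [segProd_self]; exact BandDiag.one
    | succ m ih =>
      intro hm
      rw [segProd_succ _ m.zero_le]
      refine (ih (by omega)).mul ?_
      rw [idealFun, dif_pos (show m < c.len by omega)]
      exact idealSeg_bandDiag _ _ _ _ _ _
  refine ⟨?_, lift_off (hbd _ le_rfl)⟩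
  rw [lift_eq]
  have hlen : (d.plan (d.j₀ + i)).length = c.len := plan_length h i
  have hpos : 0 < c.len := by
    have := c.spec.nonempty
    rw [ne_eq, List.ofFn_eq_nil_iff] at this
    omega
  set a := clusterExp d r₂ β p c i with ha
  set g : ℕ → Matrix BPt BPt ℂ :=
    fun k => labDiag (a k) * ((c.specs[k]?).map fun s => s.bandMat (z k)).getD 1 with hg
  set v : ℕ → ℝ := fun m => if m < c.len then segStart d i m else clusterStart d (i + 1) with hv
  have key : ∀ m ≤ c.len, bandBlock K (segProd (idealFun d r₂ β p c K i z) 0 m) =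
      ((List.range m).map g).prod * labDiag (freeDecay d r₂ β (expNode d c.len i m) (v m)) := by
    intro m
    induction m with
    | zero =>
      intro _
      rw [segProd_self, bandBlock_one, List.range_zero, List.map_nil, List.prod_nil, one_mul,
        labDiag_zero fun t _ => ?_]
      simp [freeDecay, hv, hpos, expNode, stageStart_zero]
    | succ m ih =>
      intro hm
      have hml : m < c.len := by omega
      have hs1 : segEnd d i m = v (m + 1) := by simp only [segEnd, hv, hlen]
      have hs0 : v m = segStart d i m := if_pos hml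
      have hnode : expNode d c.len i (m + 1) = ctrlStart d i m := if_pos hml
      rw [segProd_succ _ m.zero_le, bandBlock_mul (hbd m (by omega)), ih (by omega), idealFun,
        dif_pos hml, idealSeg_band, List.range_succ, List.map_append, List.prod_append, hs1,
        hnode, hs0]
      simp only [List.map_cons, List.map_nil, List.prod_cons, List.prod_nil, mul_one, hg]
      rw [show c.specs[m]? = some (c.stage ⟨m, hml⟩).spec by simp [ClusterData.specs, hml],
        Option.map_some, Option.getD_some]
      have hlab : labDiag (freeDecay d r₂ β (expNode d c.len i m) (segStart d i m)) *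
          labDiag (fun t => freeDecay d r₂ β (segStart d i m) (ctrlStart d i m) t +
            stageShift d r₂ β p (c.stage ⟨m, hml⟩).spec.gauge i m t) = labDiag (a m) := ?_
      · simp only [mul_assoc]
        rw [← mul_assoc (labDiag _) (labDiag _), hlab]
      rw [labDiag_add]
      refine labDiag_congr fun t ht => ?_
      simp only [ha, clusterExp, if_pos ht, if_pos hml.le, dif_pos hml, hnode]
      rw [← add_assoc]
      congr 1
      refine freeDecay_add hd ?_ (startTime_le hd (stageStart_ge hd (by omega))) ?_ t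
      · cases m with
        | zero => exact startTime_le hd (clusterStart_ge hd i)
        | succ k =>
          rw [show expNode d c.len i (k + 1) = ctrlStart d i k from if_pos (by omega)]
          refine (startTime_le hd (stageStart_ge hd (i := i) (l := k) (by omega))).trans ?_
          exact le_add_of_nonneg_right (by have := speed_pos (one_le_idx hd i); positivity)
      · refine (startTime_le hd (stageStart_ge hd (i := i) (l := m) (by omega))).trans ?_
        exact le_add_of_nonneg_right (by have := speed_pos (one_le_idx hd i); positivity)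
  rw [key _ le_rfl, clusterProd, show c.specs.length = c.len by simp [ClusterData.specs]]
  refine congrArg (fun D => ((List.range c.len).map g).prod * D) (labDiag_congr fun t ht => ?_)
  simp only [ha, clusterExp, if_pos ht, le_refl, if_true, lt_irrefl, dif_neg, not_false_iff,
    add_zero]
  simp [expNode, hv]

/-- When every stage hits its target, `rawMap` is the backward map on nonconstant points. -/
theorem rawMap_eq {S : Schedule} {R : ℕ} (h : S.Adm R d r₂ β φ₀) {p : Param}
    (hp : InBox d p) (K i : ℕ) (z : ℕ → ℂ)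
    (hhit : ∀ l : Fin (S.cd (d.j₀ + i)).len,
      stageNorm d r₂ β p ((S.cd (d.j₀ + i)).stage l).spec.gauge i l =
        ((S.cd (d.j₀ + i)).stage l).spec.tgt (z l))
    (x y : PntK (K + 40)) (hx : lab x.out ≠ 0) (hy : lab y.out ≠ 0) :
    rawMap d r₂ β p (S.cd (d.j₀ + i)) K i z x y =
      truncBack d r₂ β p (K + 40) (clusterStart d i) (clusterStart d (i + 1)) x y := by
  set c := S.cd (d.j₀ + i) with hc
  have hd := h.good
  have hlen : (d.plan (d.j₀ + i)).length = c.len := plan_length h i
  have hpos : 0 < c.len := by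
    have := c.spec.nonempty
    rw [ne_eq, List.ofFn_eq_nil_iff] at this
    omega
  set v : ℕ → ℝ := fun m => if m < c.len then segStart d i m else clusterStart d (i + 1) with hv
  set Q : ℕ → Op (PntK (K + 40)) := fun l => segBack d r₂ β p (K + 40) i l (segEnd d i l) with hQ
  set Rc : ℕ → Op (PntK (K + 40)) :=
    fun m => truncBack d r₂ β p (K + 40) (clusterStart d i) (v m) with hRc
  have hst : startTime r₂ ≤ clusterStart d i := startTime_le hd (clusterStart_ge hd i)
  have htel := back_telescope (Rc := Rc) (E := segErr d r₂ β p K i) (Q := Q)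
    (by
      simp only [hRc, hv, if_pos hpos]
      rw [show segStart d i 0 = clusterStart d i from stageStart_zero (d := d) i]
      exact (truncBack_spec hd hp (K + 40) hst (clusterStart d i)).1) c.len (fun k hk => by
      have hk' : k < (d.plan (d.j₀ + i)).length := hlen.symm ▸ hk
      simp only [hRc, hQ]
      rw [show v k = segStart d i k from if_pos hk,
        show v (k + 1) = segEnd d i k by simp only [segEnd, hv, hlen],
        ← truncBack_seg hd hp K i hk']
      exact truncBack_trans hd hp (K + 40) hst (clusterStart_le_stageStart hd hk'.le)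
        (seg_le hd hk'))
  have e : rawMap d r₂ β p c K i z * ncProj (K + 40) = Rc c.len * ncProj (K + 40) := by
    rw [htel, rawMap, sub_mul, sub_mul, Finset.sum_mul, Finset.sum_mul]
    have hcomm : ∀ k ≤ c.len, segProd (idealFun d r₂ β p c K i z) k c.len * ncProj (K + 40) =
        segProd Q k c.len * ncProj (K + 40) := fun k hk =>
      segProd_congr_right hk (fun l _ hl => ideal_eq h hp K i z l hl (hhit ⟨l, hl⟩))
        fun l _ hl => ncProj_commute (segBack_commute hd hp _ i (hlen.symm ▸ hl))
    rw [hcomm 0 c.len.zero_le]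
    refine congrArg (fun X => segProd Q 0 c.len * ncProj (K + 40) - X) ?_
    refine Finset.sum_congr rfl fun k hk => ?_
    have hk := Finset.mem_range.1 hk
    rw [mul_assoc _ (segProd (idealFun d r₂ β p c K i z) k c.len), hcomm k hk.le, ← mul_assoc]
    simp only [hRc, hv, if_pos hk]
  have e' := congrFun (congrFun e x) y
  rw [mul_ncProj_apply _ x y hy, mul_ncProj_apply _ x y hy] at e'
  rw [e']
  simp [hRc, hv]

end Vale.Agent.P225
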