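import Vale.Agent.P225.Assembly.Limit.Approx
import Vale.Agent.P225.Assembly.Limit.Calc
import Vale.Agent.P225.Assembly.Limit.Growth
import Vale.Agent.P225.Cluster.Limit

/-!
P225, assembly: the limit over the truncations is an exact solution on the whole half line.
-/

noncomputable section

namespace Vale.Agent.P225

open Matrix SU2 Set Filter Topology Lim
open scoped ComplexOrder Matrix.Norms.L2Operator

/-- Coefficients solving the equations of the path at all times. -/
structure IsPathSolution (d : PathData) (p : Param) (f : Pnt → ℝ → ℂ) : Prop where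
  diff : ∀ x, Differentiable ℝ (f x)
  ode : ∀ x t, HasDerivAt (deriv (f x))
    (rowSum (pathGauge d t) (pathOp d p t) (fun y => f y t) x -
      (pathDamp d t : ℂ) * deriv (f x) t) t

theorem exists_limit_solution (S : Schedule) (R : ℕ) : ∃ j₁ : ℕ,
    ∀ (d : PathData) (r₂ β φ₀ : ℝ), S.Adm R d r₂ β φ₀ → j₁ ≤ d.j₀ →
      ∀ C : ℝ, HasColumns d r₂ β C (20 - S.δ / 2) →
      ∃ p : Param, InBox d p ∧ ∃ f : BPt → Pnt → ℝ → ℂ, ∀ b : BPt,
        IsPathSolution d p (f b) ∧
        (∀ x, ∀ t ∈ Icc (startTime r₂) (Real.log r₂),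
          deriv (f b x) t = (coreRate β (lab x) t : ℂ) * f b x t) ∧
        (∀ (m : ℕ) (T : ℝ), ∃ D : ℝ, ∀ x, ∀ t ∈ Icc (startTime r₂) T,
          ((ptSize x : ℝ) + 1) ^ m * (‖f b x t‖ + ‖deriv (f b x) t‖) ≤ D) ∧
        (∃ D : ℝ, ∀ x, ∀ t, clusterStart d 0 ≤ t →
          ((ptSize x : ℝ) + 1) ^ 27 * ‖f b x t‖ ≤ D * Real.exp (20 * t)) ∧
        ∀ y : BPt, f b y.1.out (clusterStart d 0) = if b = y then 1 else 0 := by
  obtain ⟨j₂, hdec⟩ := truncBack_decay S.period (S.plan R) S.box
  obtain ⟨j₃, hnrm⟩ := exists_norm_truncOp_le S.period (S.plan R) S.box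
  refine ⟨max j₂ j₃, fun d r₂ β φ₀ hA hj C hC => ?_⟩
  have hd := hA.good
  choose D hD using hdec d r₂ β φ₀ hA.period_eq hA.plan_eq hA.box_eq
    ((le_max_left _ _).trans hj) hd
  choose pJ hpJ vJ hdel hgrow using fun J => hC J J
  have hmono := (clusterStart_bounds hd).1.monotone
  have hL0 : Real.log r₂ < clusterStart d 0 := by
    have := Trunc.clusterStart_ge hd 0
    linarith [hd.pre_late]
  have hSL : startTime r₂ < Real.log r₂ := by unfold startTime; linarith
  set k := 20 - S.δ / 2 with hk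
  let V : ℕ → ℝ := fun n => C * Real.exp (k * (clusterStart d n - clusterStart d 0))
  let g : ℕ → BPt → Pnt → ℝ → ℂ := fun J =>
    colVal d r₂ β (pJ J) (J + 40) (clusterStart d J) (vJ J)
  let g' : ℕ → BPt → Pnt → ℝ → ℂ := fun J =>
    colDer d r₂ β (pJ J) (J + 40) (clusterStart d J) (vJ J)
  have hbd : ∀ (m n J : ℕ), n ≤ J → ∀ b x t, startTime r₂ ≤ t → t + 2 ≤ clusterStart d n →
      ((ptSize x : ℝ) + 1) ^ m * ‖g J b x t‖ ≤ D m * V n ∧
        ((ptSize x : ℝ) + 1) ^ m * ‖g' J b x t‖ ≤ D m * V n := by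
    intro m n J hnJ b x t ht htn
    obtain ⟨h1, h2⟩ := hD m (pJ J) (hpJ J) (J + 40) t (clusterStart d n) ht htn
    exact col_bound hd (hpJ J) (vJ J) h1 h2 (hgrow J n hnJ) ht (by linarith) (hmono hnJ) b x
  have hex : ∀ t : ℝ, ∃ n : ℕ, t + 2 ≤ clusterStart d n := fun t => by
    obtain ⟨n, hn⟩ := exists_nat_ge (t + 2)
    exact ⟨n, hn.trans (nat_le_cluster hd n)⟩
  choose nOf hnOf using hex
  obtain ⟨φ, hφ, pl, cl, hpl, hcl⟩ := exists_limit_subseq (ι₁ := ℕ × ℕ × ℕ)
    (ι₂ := BPt × Pnt × {q : ℚ // startTime r₂ ≤ (q : ℝ)}) (P := fun _ => ℝ) (E := fun _ => ℂ × ℂ)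
    (fun _ => d.box) (fun j => D 0 * V (nOf (j.2.2.1 : ℝ)))
    (fun J i => pJ J i.1 i.2.1 i.2.2)
    (fun J j => (g J j.1 j.2.1 (j.2.2.1 : ℝ), g' J j.1 j.2.1 (j.2.2.1 : ℝ)))
    (fun i => Eventually.of_forall fun J => by simpa using hpJ J i.1 i.2.1 i.2.2)
    (fun j => by
      filter_upwards [eventually_ge_atTop (nOf (j.2.2.1 : ℝ))] with J hJ
      obtain ⟨h1, h2⟩ := hbd 0 _ J hJ j.1 j.2.1 _ j.2.2.2 (hnOf _)
      rw [pow_zero, one_mul] at h1 h2
      rw [Prod.norm_def]
      exact max_le h1 h2)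
  set q : Param := fun i l k => pl (i, l, k) with hqdef
  have hq : InBox d q := fun i l k => by simpa using (hpl (i, l, k)).1
  have hqlim : ∀ i l k, Tendsto (fun m => pJ (φ m) i l k) atTop (𝓝 (q i l k)) :=
    fun i l k => (hpl (i, l, k)).2
  let f : BPt → Pnt → ℝ → ℂ := fun b x t => limUnder atTop fun m => g (φ m) b x t
  let f' : BPt → Pnt → ℝ → ℂ := fun b x t => limUnder atTop fun m => g' (φ m) b x t
  let rhs : ℕ → BPt → Pnt → ℝ → ℂ := fun J b x t =>
    pathRow d (pJ J) t (fun y => g J b y t) x - (pathDamp d t : ℂ) * g' J b x t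
  -- the estimates near a time after the start
  have hloc : ∀ b x a c, startTime r₂ < a → a < c → ∃ L : ℝ,
      (∀ᶠ m in atTop, ∀ t ∈ Icc a c,
        HasDerivAt (g (φ m) b x) (g' (φ m) b x t) t ∧
          HasDerivAt (g' (φ m) b x) (rhs (φ m) b x t) t ∧
          ‖g' (φ m) b x t‖ ≤ L ∧ ‖rhs (φ m) b x t‖ ≤ L) := by
    intro b x a c ha hac
    obtain ⟨M, hM⟩ := hnrm d r₂ β φ₀ hA.period_eq hA.plan_eq hA.box_eq
      ((le_max_right _ _).trans hj) hd (ptSize x) a c
    obtain ⟨N, hN⟩ := (isCompact_Icc (a := a) (b := c)).exists_bound_of_continuousOn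
      (Trunc.pathDamp_cont hd).continuousOn
    set n := nOf c
    set B := D 0 * V n
    refine ⟨max B ((∑ _z : PntK (ptSize x), M * B) + N * B), ?_⟩
    filter_upwards [hφ.tendsto_atTop.eventually (eventually_ge_atTop (max n (ptSize x)))]
      with m hm t ht
    have hn : n ≤ φ m := (le_max_left _ _).trans hm
    have hx : ptSize x ≤ φ m + 40 := ((le_max_right _ _).trans hm).trans (Nat.le_add_right _ _)
    have htn : t + 2 ≤ clusterStart d n := by linarith [ht.2, hnOf c]
    have ht0 : startTime r₂ < t := ha.trans_le ht.1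
    obtain ⟨h1, h2⟩ := col_deriv hd (hpJ (φ m)) (vJ (φ m)) b hx ht0
      (show t < clusterStart d (φ m) by linarith [hmono hn])
    have hb' : ∀ y, ‖g (φ m) b y t‖ ≤ B ∧ ‖g' (φ m) b y t‖ ≤ B := fun y => by
      simpa using hbd 0 n (φ m) hn b y t ht0.le htn
    refine ⟨h1, h2, (hb' x).2.trans (le_max_left _ _), le_trans ?_ (le_max_right _ _)⟩
    refine (norm_sub_le _ _).trans (add_le_add ?_ ?_)
    · rw [pathRow_eq _ t _ le_rfl (lab_le x)]
      refine (norm_sum_le _ _).trans (Finset.sum_le_sum fun z _ => ?_)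
      have hM' := hM _ (hpJ (φ m)) t ht (below x (ptSize x) (lab_le x)) z
      rw [norm_mul]
      exact mul_le_mul hM' (hb' _).1 (norm_nonneg _) ((norm_nonneg _).trans hM')
    · rw [norm_mul, Complex.norm_real]
      exact mul_le_mul (hN t ht) (hb' x).2 (norm_nonneg _) ((norm_nonneg _).trans (hN t ht))
  have hrat : ∀ b x (r : ℚ), startTime r₂ ≤ (r : ℝ) →
      (∃ l, Tendsto (fun m => g (φ m) b x r) atTop (𝓝 l)) ∧
        ∃ l, Tendsto (fun m => g' (φ m) b x r) atTop (𝓝 l) := fun b x r hr =>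
    ⟨⟨_, (hcl (b, x, ⟨r, hr⟩)).2.fst_nhds⟩, ⟨_, (hcl (b, x, ⟨r, hr⟩)).2.snd_nhds⟩⟩
  have hfirst : ∀ b x a c, startTime r₂ < a → a < c →
      (∀ t ∈ Icc a c, Tendsto (fun m => g (φ m) b x t) atTop (𝓝 (f b x t)) ∧
        Tendsto (fun m => g' (φ m) b x t) atTop (𝓝 (f' b x t))) ∧
      ContinuousOn (f b x) (Icc a c) ∧ ContinuousOn (f' b x) (Icc a c) ∧
      ∀ t ∈ Ioo a c, HasDerivAt (f b x) (f' b x t) t := by
    intro b x a c ha hac
    obtain ⟨L, hev⟩ := hloc b x a c ha hac
    exact Lim.exists_limit hac hev (fun r hr => hrat b x r (ha.le.trans hr.1))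
      (fun t _ h => tendsto_nhds_limUnder h) (fun t _ h => tendsto_nhds_limUnder h)
  have hconv : ∀ b x t, startTime r₂ < t →
      Tendsto (fun m => g (φ m) b x t) atTop (𝓝 (f b x t)) ∧
        Tendsto (fun m => g' (φ m) b x t) atTop (𝓝 (f' b x t)) := fun b x t ht =>
    (hfirst b x t (t + 1) ht (by linarith)).1 t ⟨le_rfl, by linarith⟩
  have hD1 : ∀ b x t, startTime r₂ < t → HasDerivAt (f b x) (f' b x t) t := fun b x t ht =>
    (hfirst b x ((startTime r₂ + t) / 2) (t + 1) (by linarith) (by linarith)).2.2.2 t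
      ⟨by linarith, by linarith⟩
  -- the limit equation
  have hD2 : ∀ b x t, startTime r₂ < t → HasDerivAt (f' b x)
      (pathRow d q t (fun y => f b y t) x - (pathDamp d t : ℂ) * f' b x t) t := by
    intro b x t₀ ht₀
    obtain ⟨a, ha⟩ : ∃ a, a = (startTime r₂ + t₀) / 2 := ⟨_, rfl⟩
    have ha1 : startTime r₂ < a := by linarith
    have hac : a < t₀ + 1 := by linarith
    obtain ⟨L, hev⟩ := hloc b x a (t₀ + 1) ha1 hac
    refine Lim.hasDerivAt_limit (u := fun m => g' (φ m) b x) (u' := fun m => rhs (φ m) b x)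
      (f := f' b x) (h := fun t => pathRow d q t (fun y => f b y t) x -
        (pathDamp d t : ℂ) * f' b x t) (hev.mono fun m hm t ht => ⟨(hm t ht).2.1, (hm t ht).2.2.2⟩)
      ?_ (fun t ht => ((hfirst b x a _ ha1 hac).1 t ht).2) (fun t ht => ?_) ?_
      ⟨by linarith, by linarith⟩
    · filter_upwards [hφ.tendsto_atTop.eventually
        (eventually_ge_atTop (max (nOf (t₀ + 1)) (ptSize x)))] with m hm
      have hcol : ∀ y, ptSize y ≤ φ m + 40 → ∀ t ∈ Icc a (t₀ + 1),
          ContinuousAt (g (φ m) b y) t ∧ ContinuousAt (g' (φ m) b y) t := fun y hy t ht => by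
        have hlt : t < clusterStart d (φ m) := by
          linarith [ht.2, hnOf (t₀ + 1), hmono ((le_max_left _ _).trans hm)]
        obtain ⟨h1, h2⟩ := col_deriv hd (hpJ (φ m)) (vJ (φ m)) b hy (ha1.trans_le ht.1) hlt
        exact ⟨h1.continuousAt, h2.continuousAt⟩
      have hx : ptSize x ≤ φ m + 40 :=
        ((le_max_right _ _).trans hm).trans (Nat.le_add_right _ _)
      refine ContinuousOn.sub ?_ ((Complex.continuous_ofReal.comp
        (Trunc.pathDamp_cont hd)).continuousOn.mul
          fun t ht => (hcol x hx t ht).2.continuousWithinAt)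
      simp only [pathRow_eq _ _ _ le_rfl (lab_le x)]
      refine continuousOn_finsetSum _ fun z _ =>
        ((truncOp_spec hd (hpJ _) _).1.matrix_elem _ z).continuousOn.mul ?_
      by_cases hz : ∀ i, lab z.out i ≤ φ m + 40
      · refine ContinuousOn.congr (f := fun t => (truncBack d r₂ β (pJ (φ m)) (φ m + 40) t
            (clusterStart d (φ m)) * vJ (φ m)) (below z.out _ hz) b) ?_ fun t _ => dif_pos hz
        intro t ht
        have hlt : t < clusterStart d (φ m) := by
          linarith [ht.2, hnOf (t₀ + 1), hmono ((le_max_left _ _).trans hm)]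
        exact (hasDerivAt_mul_entry (truncBack_deriv hd (hpJ _) _ (ha1.trans_le ht.1) hlt).1
          _ _ b).continuousAt.continuousWithinAt
      · exact (continuousOn_const (c := (0 : ℂ))).congr fun t _ => dif_neg hz
    · have ht0 : startTime r₂ < t := ha1.trans_le ht.1
      simp only [rhs, pathRow_eq _ t _ le_rfl (lab_le x)]
      exact (tendsto_finsetSum _ fun z _ => (tendsto_truncOp hd hq hqlim _ t _ z).mul
        (hconv b _ t ht0).1).sub ((hconv b x t ht0).2.const_mul _)
    · refine ContinuousOn.sub ?_ ((Complex.continuous_ofReal.comp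
        (Trunc.pathDamp_cont hd)).continuousOn.mul (hfirst b x a _ ha1 hac).2.2.1)
      simp only [pathRow_eq _ _ _ le_rfl (lab_le x)]
      exact continuousOn_finsetSum _ fun z _ =>
        ((truncOp_spec hd hq _).1.matrix_elem _ z).continuousOn.mul (hfirst b _ a _ ha1 hac).2.1
  -- the regular solution in the core
  let F : BPt → Pnt → ℝ → ℂ := fun b x t =>
    if t ≤ Real.log r₂ then coreExp r₂ β (lab x) t * f b x (Real.log r₂) else f b x t
  have hcore : ∀ b x, ∀ t ∈ Icc (startTime r₂) (Real.log r₂),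
      Tendsto (fun m => g (φ m) b x t) atTop (𝓝 (F b x t)) ∧
        Tendsto (fun m => g' (φ m) b x t) atTop (𝓝 ((coreRate β (lab x) t : ℂ) * F b x t)) := by
    intro b x t ht
    have hc : ∀ J, g' J b x t = (coreRate β (lab x) t : ℂ) * g J b x t ∧
        g J b x t = coreExp r₂ β (lab x) t * g J b x (Real.log r₂) := fun J =>
      col_core hd (hpJ J) (vJ J) b x (hL0.le.trans (hmono (Nat.zero_le J))) ht
    have h1 : Tendsto (fun m => g (φ m) b x t) atTop (𝓝 (F b x t)) := by
      simp only [F, if_pos ht.2]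
      exact (((hconv b x _ hSL).1.const_mul _).congr fun m => (hc (φ m)).2.symm)
    exact ⟨h1, (h1.const_mul _).congr fun m => (hc (φ m)).1.symm⟩
  have hFf : ∀ b x t, startTime r₂ < t → F b x t = f b x t := fun b x t ht => by
    by_cases h : t ≤ Real.log r₂
    · exact tendsto_nhds_unique (hcore b x t ⟨ht.le, h⟩).1 (hconv b x t ht).1
    · exact if_neg h
  have hder0 : ∀ b x t, startTime r₂ < t → HasDerivAt (F b x) (f' b x t) t := fun b x t ht =>
    (hD1 b x t ht).congr_of_eventuallyEq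
      (by filter_upwards [Ioi_mem_nhds ht] with s hs using hFf b x s hs)
  have hder1 : ∀ b x t, t < Real.log r₂ →
      HasDerivAt (F b x) ((coreRate β (lab x) t : ℂ) * F b x t) t := fun b x t ht => by
    have e : F b x t = coreExp r₂ β (lab x) t * f b x (Real.log r₂) := if_pos ht.le
    rw [e, ← mul_assoc]
    exact ((hasDerivAt_coreExp hd (lab x) t).mul_const _).congr_of_eventuallyEq
      (by filter_upwards [Iio_mem_nhds ht] with s hs using if_pos (le_of_lt hs))
  have hderiv : ∀ b x, ∀ t ∈ Icc (startTime r₂) (Real.log r₂),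
      deriv (F b x) t = (coreRate β (lab x) t : ℂ) * F b x t := by
    intro b x t ht
    rcases ht.2.lt_or_eq with h | h
    · exact (hder1 b x t h).deriv
    · have hst : startTime r₂ < t := h ▸ hSL
      rw [(hder0 b x t hst).deriv]
      exact tendsto_nhds_unique (hconv b x t hst).2 (hcore b x t ht).2
  have hlim : ∀ b x t, startTime r₂ ≤ t →
      Tendsto (fun m => g (φ m) b x t) atTop (𝓝 (F b x t)) ∧
        Tendsto (fun m => g' (φ m) b x t) atTop (𝓝 (deriv (F b x) t)) := by
    intro b x t ht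
    rcases ht.lt_or_eq with h | h
    · rw [hFf b x t h, (hder0 b x t h).deriv]
      exact hconv b x t h
    · have hm : t ∈ Icc (startTime r₂) (Real.log r₂) := ⟨ht, h ▸ hSL.le⟩
      rw [hderiv b x t hm]
      exact hcore b x t hm
  refine ⟨q, hq, F, fun b => ⟨⟨fun x t => ?_, fun x t => ?_⟩, hderiv b, fun m T => ?_, ?_,
    fun y => ?_⟩⟩
  · rcases lt_or_ge (startTime r₂) t with h | h
    · exact (hder0 b x t h).differentiableAt
    · exact (hder1 b x t (h.trans_lt hSL)).differentiableAt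
  · rcases lt_or_ge (startTime r₂) t with h | h
    · have he : deriv (F b x) =ᶠ[𝓝 t] f' b x := by
        filter_upwards [Ioi_mem_nhds h] with s hs using (hder0 b x s hs).deriv
      rw [he.eq_of_nhds, show (fun y => F b y t) = fun y => f b y t from
        funext fun y => hFf b y t h]
      exact (hD2 b x t h).congr_of_eventuallyEq he
    · have ht : t < Real.log r₂ := h.trans_lt hSL
      have he : deriv (F b x) =ᶠ[𝓝 t] fun s => (coreRate β (lab x) s : ℂ) * F b x s := by
        filter_upwards [Iio_mem_nhds ht] with s hs using (hder1 b x s hs).deriv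
      have hrow : rowSum (pathGauge d t) (pathOp d q t) (fun y => F b y t) x =
          (baseCoef d (lab x) t : ℂ) * F b x t := by
        have hpre : truncOp d q (ptSize x) t = Trunc.baseDiag d (ptSize x) t :=
          (Trunc.pathMat_pre hd q (by linarith [hd.pre_late])).1
        refine (pathRow_eq q t (fun y => F b y t) le_rfl (lab_le x)).trans ?_
        rw [hpre, Finset.sum_eq_single (below x _ (lab_le x))]
        · rw [Trunc.baseDiag, Matrix.diagonal_apply_eq, below_out]
        · intro z _ hz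
          rw [Trunc.baseDiag, Matrix.diagonal_apply_ne _ hz.symm, zero_mul]
        · simp
      rw [he.eq_of_nhds, hrow]
      refine HasDerivAt.congr_of_eventuallyEq ?_ he
      refine ((Lim.hasDerivAt_coreRate hd (lab x) ht.le).ofReal_comp.mul
        (hder1 b x t ht)).congr_deriv ?_
      push_cast
      ring
  · refine ⟨2 * (D m * V (nOf T)), fun x t ht => ?_⟩
    have hn : t + 2 ≤ clusterStart d (nOf T) := by linarith [ht.2, hnOf T]
    refine le_of_tendsto (((hlim b x t ht.1).1.norm.add (hlim b x t ht.1).2.norm).const_mul _) ?_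
    filter_upwards [hφ.tendsto_atTop.eventually (eventually_ge_atTop (nOf T))] with j hJ
    obtain ⟨h1, h2⟩ := hbd m (nOf T) (φ j) hJ b x t ht.1 hn
    rw [mul_add, two_mul]
    exact add_le_add h1 h2
  · obtain ⟨B, hB⟩ := exists_exp_bound hd S.δ_pos
    refine ⟨D 27 * C * Real.exp B, fun x t ht => ?_⟩
    obtain ⟨i, l, hl, hs1, hs2⟩ := exists_segment hd ht
    have hi0 : clusterStart d i ≤ t := (Trunc.clusterStart_le_stageStart hd hl.le).trans hs1
    have hi1 : t ≤ clusterStart d (i + 1) := by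
      refine hs2.trans ?_
      rcases Trunc.segEnd_cases hl with ⟨h', he⟩ | ⟨-, he⟩ <;> rw [he]
      exact (Trunc.stageStart_lt_cluster hd h'.le).le
    have hn : t + 2 ≤ clusterStart d (i + 3) := by
      linarith [cluster_step hd (i + 1), cluster_step hd (i + 2)]
    have ht0 : startTime r₂ ≤ t :=
      (Trunc.startTime_le hd (Trunc.clusterStart_ge hd 0)).trans ht
    refine le_of_tendsto ((hlim b x t ht0).1.norm.const_mul _) ?_
    filter_upwards [hφ.tendsto_atTop.eventually (eventually_ge_atTop (i + 3))] with j hJ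
    refine (hbd 27 (i + 3) (φ j) hJ b x t ht0 hn).1.trans ?_
    have hD0 : 0 ≤ D 27 :=
      (norm_nonneg _).trans (hD 27 (pJ 0) (hpJ 0) 0 t (t + 2) ht0 le_rfl).1
    have hC0 : 0 ≤ C :=
      nonneg_of_mul_nonneg_left ((norm_nonneg _).trans (hgrow 0 0 le_rfl)) (Real.exp_pos _)
    calc D 27 * V (i + 3) ≤ D 27 * (C * Real.exp (20 * t + B)) :=
          mul_le_mul_of_nonneg_left (mul_le_mul_of_nonneg_left
            (Real.exp_le_exp.2 (hB i t hi0)) hC0) hD0
      _ = D 27 * C * Real.exp B * Real.exp (20 * t) := by rw [Real.exp_add]; ring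
  · have hg : ∀ J, g J b y.1.out (clusterStart d 0) = if b = y then 1 else 0 := fun J => by
      rw [← hdel J b y]
      exact ptVal_out _ b (bIdx J y)
    refine tendsto_nhds_unique (hlim b _ _ (Trunc.startTime_le hd (Trunc.clusterStart_ge hd 0))).1 ?_
    simp only [hg]
    exact tendsto_const_nhds

end Vale.Agent.P225
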