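import Vale.Agent.P225.Assembly.Coeff
import Vale.Agent.P225.Main.FromCoeff

/-!
P225, assembly: the comparison fails.
-/

noncomputable section

namespace Vale.Agent.P225

open Matrix SU2

theorem yauFails : YauFails := by
  obtain ⟨S⟩ := exists_schedule
  obtain ⟨R, j₁, hcol⟩ := exists_columns S
  obtain ⟨j₂, hlim⟩ := exists_limit_solution S R
  obtain ⟨j₃, hmet⟩ := exists_path_metric S.period (S.plan R) (S.isPlan R) S.box S.box_nonneg
  have hle : j₁ + j₂ + j₃ + 1 ≤ S.period * (j₁ + j₂ + j₃ + 1) :=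
    Nat.le_mul_of_pos_left _ S.period_pos
  obtain ⟨scale, pre, r₂, β, φ₀, hgood, hp⟩ :=
    hmet (S.period * (j₁ + j₂ + j₃ + 1)) (by omega)
  set d : PathData :=
    ⟨S.period, S.plan R, S.period * (j₁ + j₂ + j₃ + 1), S.box, scale, pre⟩
  have hA : S.Adm R d r₂ β φ₀ := ⟨rfl, rfl, rfl, hgood, Nat.mul_mod_right _ _⟩
  obtain ⟨C, hC⟩ := hcol d r₂ β φ₀ hA (show j₁ ≤ S.period * (j₁ + j₂ + j₃ + 1) by omega)
  obtain ⟨p, hpb, f, hf⟩ :=
    hlim d r₂ β φ₀ hA (show j₂ ≤ S.period * (j₁ + j₂ + j₃ + 1) by omega) C hC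
  obtain ⟨hg, hd⟩ := hp p hpb
  have hc : ∀ b, _ := fun b => isCoeff_of_pathSolution hgood hpb (hf b).1 (hf b).2.1
    (hf b).2.2.1 (hf b).2.2.2.1
  choose ξ hξ using fun b => (hc b).1
  have hr : r₂ / 2 ≤ Real.exp (clusterStart d 0) := by
    have h := Real.exp_le_exp.2 hgood.pre_late.le
    rw [Real.exp_log hgood.r₂_pos] at h
    have h2 : Real.exp ((d.j₀ : ℝ) ^ 6 - 1) ≤ Real.exp (clusterStart d 0) :=
      Real.exp_le_exp.2 (by simp [clusterStart])
    linarith [hgood.r₂_pos]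
  refine yauFails_of_coeff hg hd hr (fun b x r => f b x (Real.log r)) ξ hξ
    (fun b => (hc b).2) fun b y => ?_
  simp [Real.log_exp, (hf b).2.2.2.2 y]

end Vale.Agent.P225
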