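import Vale.Agent.P225.System.StageExact
import Vale.Agent.P225.Group.Targets

/-!
P225, assembly: the periodic plan of clusters with the word and the correction map of every stage.
-/

noncomputable section

namespace Vale.Agent.P225

open Matrix SU2 NormedSpace Metric
open scoped ComplexOrder Matrix.Norms.L2Operator

noncomputable instance : DecidableEq UPoint := Classical.decEq _

/-- A stage target with a regular word for it. -/
structure StageData where
  spec : StageSpec
  nLet : ℕ
  nPar : ℕ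
  letter : Fin nLet → Fin 3 × Fin 3
  x0 : Fin nLet → ℝ
  dir : (Fin nPar → ℝ) →L[ℝ] (Fin nLet → ℝ)
  parRad : ℝ
  tol : ℝ
  corr : BlkAlg (bandBlocks spec.gauge) →L[ℝ] (Fin nPar → ℝ)
  parRad_pos : 0 < parRad
  tol_pos : 0 < tol
  word_eq : ctrlWord (bandBlocks spec.gauge) bandWeight letter x0 = exp spec.X
  corr_mem : ∀ y ∈ closedBall (0 : Fin nPar → ℝ) parRad, ∀ M T : BlkAlg (bandBlocks spec.gauge),
    ‖M - ctrlWord (bandBlocks spec.gauge) bandWeight letter (x0 + dir y)‖ ≤ tol →
      ‖T - exp spec.X‖ ≤ tol → y - corr (M - T) ∈ closedBall (0 : Fin nPar → ℝ) parRad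
  corr_eq : ∀ y ∈ closedBall (0 : Fin nPar → ℝ) parRad, ∀ M T : BlkAlg (bandBlocks spec.gauge),
    ‖M - ctrlWord (bandBlocks spec.gauge) bandWeight letter (x0 + dir y)‖ ≤ tol →
      ‖T - exp spec.X‖ ≤ tol → IsTarget M → IsTarget T → corr (M - T) = 0 → M = T

/-- One cluster: stages, the permutation of the classes and the slot response. -/
structure ClusterData where
  len : ℕ
  stage : Fin len → StageData
  π : UPoint → UPoint
  C : ℝ
  C_pos : 0 < C
  spec : ClusterSpec (List.ofFn fun l => (stage l).spec) π C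
  nParts : ℕ
  slot : (ℕ → Lbl → ℝ) → ℕ → (offSpace →ₗ[ℝ] ℂ)
  parts : Fin nParts → (offSpace →ₗ[ℝ] offSpace)
  slot_cont : ∀ k v, Continuous fun a => slot a k v
  parts_sum : ∑ e, parts e = LinearMap.id
  parts_le : ∀ e v,
    ‖((parts e v : offSpace) : Matrix BPt BPt ℂ)‖ ≤ C * ‖(v : Matrix BPt BPt ℂ)‖
  nParts_le : (nParts : ℝ) ≤ C
  response : ∀ (a : ℕ → Lbl → ℝ) (A : ℕ → ℝ), (∀ k ≤ len, ∀ t ∈ band, |a k t| ≤ A k) →
    (∀ k, 1 ≤ k → k < len → ∀ X ∈ band, ∀ Y ∈ band, cas4 X < cas4 Y →
      parity X = parity Y → 2 * ∑ i ∈ Finset.range k, A i ≤ a k Y - a k X) →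
    (∀ k v, ‖slot a k v‖ ≤ C * ‖(v : Matrix BPt BPt ℂ)‖) ∧
      ∀ v, clusterProd (List.ofFn fun l => (stage l).spec) a (fun k => slot a k v) =
        (List.ofFn fun e => 1 + ((parts e v : offSpace) : Matrix BPt BPt ℂ)).prod *
          clusterProd (List.ofFn fun l => (stage l).spec) a 0

/-- The targets of a cluster. -/
def ClusterData.specs (c : ClusterData) : List StageSpec := List.ofFn fun l => (c.stage l).spec

/-- Waits and dwells grow geometrically with ratio `R`. -/
def ClusterData.stagePlan (c : ClusterData) (R : ℕ) : List StagePlan :=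
  List.ofFn fun l : Fin c.len =>
    ⟨(c.stage l).spec.gauge, (c.stage l).nLet, (c.stage l).letter, R ^ (2 * (l : ℕ) + 1),
      if (l : ℕ) + 1 < c.len then R ^ (2 * (l : ℕ) + 2) else 0⟩

/-- A periodic family of clusters moving every class around all classes of its parity. -/
structure Schedule where
  period : ℕ
  period_pos : 0 < period
  cd : ℕ → ClusterData
  periodic : ∀ j, cd (j + period) = cd j
  next : ℕ → UPoint → UPoint
  π_next : ∀ j u, (cd j).π (next j u) = u
  next_π : ∀ j u, next j ((cd j).π u) = u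
  next_periodic : ∀ j, next (j + period) = next j
  δ : ℝ
  δ_pos : 0 < δ
  balanced : ∀ o : ℕ → UPoint, (∀ m, o (m + 1) = next m (o m)) → o period = o 0 ∧
    ∑ m ∈ Finset.range period, expo (27 / 4) (o (m + 1)).lbl ≤ period * (20 - δ)

/-- The plan of the path. -/
def Schedule.plan (S : Schedule) (R : ℕ) : ℕ → List StagePlan := fun j => (S.cd j).stagePlan R

/-- The amplitude in front of the coefficients in `stageNorm_near`. -/
def amp : ℝ := 2 * Real.sqrt 3 * (27 / 4)

/-- The box of all parameters. -/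
def Schedule.box (S : Schedule) : ℝ :=
  ∑ j ∈ Finset.range S.period, ∑ l : Fin (S.cd j).len,
    (‖((S.cd j).stage l).x0‖ + ‖((S.cd j).stage l).dir‖ * ((S.cd j).stage l).parRad) / amp

/-- The path uses this schedule. -/
structure Schedule.Adm (S : Schedule) (R : ℕ) (d : PathData) (r₂ β φ₀ : ℝ) : Prop where
  period_eq : d.period = S.period
  plan_eq : d.plan = S.plan R
  box_eq : d.box = S.box
  good : d.Good r₂ β φ₀
  aligned : d.j₀ % S.period = 0

/-- Variables of a cluster, normalised to unit balls. -/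
abbrev Var (c : ClusterData) := (∀ l : Fin c.len, Fin (c.stage l).nPar → ℝ) × offSpace

/-- Variables of the clusters `j₀, …, j₀ + J - 1`. -/
abbrev Schedule.Vars (S : Schedule) (j₀ J : ℕ) := ∀ i : Fin J, Var (S.cd (j₀ + i))

/-- The coefficients of the path from the variables. -/
def Schedule.parOf (S : Schedule) {j₀ J : ℕ} (x : S.Vars j₀ J) : Param := fun i l k =>
  if h : i < J then
    if hl : l < (S.cd (j₀ + i)).len then
      let st := (S.cd (j₀ + i)).stage ⟨l, hl⟩
      if hk : k < st.nLet then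
        (st.x0 + st.dir (st.parRad • (x ⟨i, h⟩).1 ⟨l, hl⟩)) ⟨k, hk⟩ / amp
      else 0
    else 0
  else 0

theorem bandWeight_separates (β : Finset (ℕ × ℕ)) : Separates β bandWeight := by
  have e : prodRate = prodExp (Real.sqrt 3 * (27 / 4)) := by
    funext q; rfl
  rw [bandWeight, e]
  exact separates_prodExp β (by positivity)

theorem exists_stageData {s : StageSpec} (h : IsTangent s.X) : ∃ D : StageData, D.spec = s := by
  obtain ⟨n, m, i, x0, P, r, δ, L, hr, hδ, he, h1, h2⟩ :=
    exists_regular_word (bandWeight_separates _) h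
  exact ⟨⟨s, n, m, i, x0, P, r, δ, L, hr, hδ, he, h1, h2⟩, rfl⟩

theorem exists_clusterData (w : List Swap) (hw : ∀ s ∈ w, s.OK) :
    ∃ c : ClusterData, c.π = applyMoves w := by
  obtain ⟨l, C, hC, hspec⟩ := exists_cluster_plan w hw
  choose D hD using fun k : Fin l.length => exists_stageData (hspec.tangent _ (List.getElem_mem k.2))
  have e : (List.ofFn fun k => (D k).spec) = l := by simp [hD]
  have hs : ClusterSpec (List.ofFn fun k => (D k).spec) (applyMoves w) C := by rwa [e]
  obtain ⟨n, R, parts, r1, r2, r3, r4, r5⟩ := hs.response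
  exact ⟨{ len := l.length, stage := D, π := applyMoves w, C := C, C_pos := hC, spec := hs,
           nParts := n, slot := R, parts := parts, slot_cont := r1, parts_sum := r2, parts_le := r3,
           nParts_le := r4,
           response := fun a A h1 h2 => r5 a A (by simpa using h1) (by simpa using h2) }, rfl⟩

attribute [local irreducible] band

theorem umult_two (a : ℕ) : (if a % 2 = 0 then 1 else 2) * umult a = a + 1 := by
  unfold umult; split_ifs <;> omega

theorem class_average : ∃ δ > (0 : ℝ), ∀ (P : UPoint) (S : Finset UPoint),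
    (∀ Q, Q ∈ S ↔ parity Q.lbl = parity P.lbl) →
    ∑ Q ∈ S, expo (27 / 4) Q.lbl ≤ S.card * (20 - δ) := by
  obtain ⟨δ, hδ, hav⟩ := band_average
  refine ⟨δ, hδ, fun P S hS => ?_⟩
  set π := parity P.lbl with hπ
  set B := band.filter (fun t => parity t = π)
  have hmaps : ∀ Q ∈ S, Q.lbl ∈ B := fun Q hQ => Finset.mem_filter.2 ⟨Q.mem, (hS Q).1 hQ⟩
  have hcard : ∀ t ∈ B, (S.filter fun Q => Q.lbl = t).card = ∏ k, umult (t k) := by
    intro t ht
    obtain ⟨htb, htp⟩ := Finset.mem_filter.1 ht
    rw [show (∏ k, umult (t k)) = (Fintype.piFinset fun k => Finset.range (umult (t k))).card by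
      simp]
    refine Finset.card_bij (fun Q _ => Q.idx) ?_ ?_ ?_
    · intro Q hQ
      obtain ⟨-, rfl⟩ := Finset.mem_filter.1 hQ
      simpa [Fintype.mem_piFinset] using Q.lt
    · intro Q hQ Q' hQ' h
      exact UPoint.ext ((Finset.mem_filter.1 hQ).2.trans (Finset.mem_filter.1 hQ').2.symm) h
    · intro g hg
      refine ⟨⟨t, g, htb, fun k => by simpa using (Fintype.mem_piFinset.1 hg) k⟩, ?_, rfl⟩
      exact Finset.mem_filter.2 ⟨(hS _).2 htp, rfl⟩
  set K : ℕ := ∏ k, (if π k = true then 2 else 1)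
  have hmult : ∀ t ∈ B, (mult t : ℝ) = K * ((∏ k, umult (t k) : ℕ) : ℝ) := by
    intro t ht
    have h : mult t = K * ∏ k, umult (t k) := by
      simp only [K, mult, ← Finset.prod_mul_distrib]
      refine Finset.prod_congr rfl fun k _ => ?_
      have hk : π k = (t k % 2 == 1) := by rw [← (Finset.mem_filter.1 ht).2]; rfl
      rcases Nat.mod_two_eq_zero_or_one (t k) with h | h <;> simp [hk, h, ← umult_two]
    exact_mod_cast h
  have hK : (0 : ℝ) < K := by
    have : 0 < K := Finset.prod_pos fun k _ => by split_ifs <;> norm_num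
    exact_mod_cast this
  set U : Lbl → ℝ := fun t => ((∏ k, umult (t k) : ℕ) : ℝ) with hU
  have hA : ∑ t ∈ B, (mult t : ℝ) * expo (27 / 4) t = K * ∑ t ∈ B, U t * expo (27 / 4) t := by
    rw [Finset.mul_sum]
    exact Finset.sum_congr rfl fun t ht => by rw [hmult t ht, mul_assoc]
  have hB : ∑ t ∈ B, (mult t : ℝ) = K * ∑ t ∈ B, U t := by
    rw [Finset.mul_sum]
    exact Finset.sum_congr rfl hmult
  have hsc : (27 / 4 : ℝ) ≤ maxScale := by unfold maxScale; norm_num
  have h1 : ∑ t ∈ B, (mult t : ℝ) * expo (27 / 4) t ≤ (20 - δ) * ∑ t ∈ B, (mult t : ℝ) :=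
    hav (27 / 4) hsc π
  rw [hA, hB, mul_left_comm] at h1
  have h2 := le_of_mul_le_mul_left h1 hK
  have e1 : ∑ Q ∈ S, expo (27 / 4) Q.lbl =
      ∑ t ∈ B, ((∏ k, umult (t k) : ℕ) : ℝ) * expo (27 / 4) t := by
    rw [← Finset.sum_fiberwise_of_maps_to hmaps]
    refine Finset.sum_congr rfl fun t ht => ?_
    rw [Finset.sum_congr rfl fun Q hQ => by rw [(Finset.mem_filter.1 hQ).2], Finset.sum_const,
      hcard t ht, nsmul_eq_mul]
  have e2 : (S.card : ℝ) = ∑ t ∈ B, ((∏ k, umult (t k) : ℕ) : ℝ) := by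
    rw [Finset.card_eq_sum_card_fiberwise hmaps, Nat.cast_sum]
    exact Finset.sum_congr rfl fun t ht => by rw [hcard t ht]
  rw [e1, e2]
  linarith

theorem exists_schedule : Nonempty Schedule := by
  classical
  let _ : Fintype UPoint := Fintype.ofFinite UPoint
  obtain ⟨n, w, hn, hper, hok, hid, hbal⟩ := exists_balanced_schedule
  obtain ⟨δ, hδ, hav⟩ := class_average
  choose D hD using fun j => exists_clusterData (w (j % n)).reverse
    (fun s hs => hok _ s (List.mem_reverse.1 hs))
  refine ⟨{ period := n, period_pos := hn, cd := fun j => D (j % n),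
            periodic := fun j => by simp, next := fun j => applyMoves (w (j % n)),
            π_next := fun j u => by rw [hD, Nat.mod_mod]; exact applyMoves_reverse _ _,
            next_π := fun j u => by
              rw [hD, Nat.mod_mod]
              simpa using applyMoves_reverse (w (j % n)).reverse u,
            next_periodic := fun j => by simp, δ := δ, δ_pos := hδ, balanced := ?_ }⟩
  intro o ho
  have hwm : ∀ m, w (m % n) = w m := by
    intro m
    conv_rhs => rw [← Nat.mod_add_div m n]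
    generalize m / n = q
    induction q with
    | zero => simp
    | succ q ih => rw [Nat.mul_succ, ← add_assoc, hper, ih]
  have ho' : ∀ m, o m = applyMoves ((List.range m).flatMap w) (o 0) := by
    intro m
    induction m with
    | zero => simp [applyMoves]
    | succ m ih =>
      rw [ho, hwm, List.range_succ, List.flatMap_append, applyMoves_append, ← ih,
        List.flatMap_singleton]
  have h0 : o n = o 0 := by rw [ho' n, hid]
  refine ⟨h0, ?_⟩
  set S : Finset UPoint := Finset.univ.filter fun Q => parity Q.lbl = parity (o 0).lbl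
  have hS : ∀ Q, Q ∈ S ↔ parity Q.lbl = parity (o 0).lbl := fun Q => by simp [S]
  have hcard : (0 : ℝ) < S.card := by exact_mod_cast Finset.card_pos.2 ⟨o 0, (hS _).2 rfl⟩
  have hshift : ∑ m ∈ Finset.range n, expo (27 / 4) (o (m + 1)).lbl =
      ∑ m ∈ Finset.range n, expo (27 / 4) (o m).lbl := by
    have h := (Finset.sum_range_succ' (fun m => expo (27 / 4) (o m).lbl) n).symm.trans
      (Finset.sum_range_succ (fun m => expo (27 / 4) (o m).lbl) n)
    rw [h0] at h
    exact add_right_cancel h
  have hb := hbal (fun Q => expo (27 / 4) Q.lbl) (o 0) S hS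
  simp only [← ho'] at hb
  rw [hshift]
  refine le_of_mul_le_mul_left ?_ hcard
  rw [hb, ← mul_assoc, mul_comm (S.card : ℝ) (n : ℝ), mul_assoc]
  exact mul_le_mul_of_nonneg_left (hav (o 0) S hS) (Nat.cast_nonneg n)

theorem Schedule.isPlan (S : Schedule) (R : ℕ) : IsPlan S.period (S.plan R) := by
  refine ⟨S.period_pos, fun j => by simp [Schedule.plan, S.periodic], fun j h => ?_⟩
  have hne := (S.cd j).spec.nonempty
  simp [Schedule.plan, ClusterData.stagePlan] at h hne
  simp [h] at hne

theorem Schedule.box_nonneg (S : Schedule) : 0 ≤ S.box :=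
  Finset.sum_nonneg fun j _ => Finset.sum_nonneg fun l _ => div_nonneg
    (add_nonneg (norm_nonneg _) (mul_nonneg (norm_nonneg _) ((S.cd j).stage l).parRad_pos.le))
    (by unfold amp; positivity)

theorem ClusterData.stagePlan_getElem (c : ClusterData) (R l : ℕ) (h : l < c.len)
    (h' : l < (c.stagePlan R).length) :
    (c.stagePlan R)[l] = ⟨(c.stage ⟨l, h⟩).spec.gauge, (c.stage ⟨l, h⟩).nLet,
      (c.stage ⟨l, h⟩).letter, R ^ (2 * l + 1), if l + 1 < c.len then R ^ (2 * l + 2) else 0⟩ := by
  simp [ClusterData.stagePlan]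

theorem Schedule.parOf_mem {S : Schedule} {R : ℕ} {d : PathData} {r₂ β φ₀ : ℝ}
    (h : S.Adm R d r₂ β φ₀) {J : ℕ} {x : S.Vars d.j₀ J} (hx : ‖x‖ ≤ 1) :
    InBox d (S.parOf x) := by
  have hamp : 0 < amp := by unfold amp; positivity
  intro i l k
  rw [h.box_eq]
  unfold Schedule.parOf
  simp only
  split_ifs with hi hl hk
  all_goals try (simp only [abs_zero]; exact S.box_nonneg)
  set st := (S.cd (d.j₀ + i)).stage ⟨l, hl⟩ with hst
  set y := (x ⟨i, hi⟩).1 ⟨l, hl⟩
  have hy : ‖y‖ ≤ 1 :=
    (((norm_le_pi_norm (x ⟨i, hi⟩).1 ⟨l, hl⟩).trans (norm_fst_le _)).trans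
      (norm_le_pi_norm x ⟨i, hi⟩)).trans hx
  have hc : S.cd ((d.j₀ + i) % S.period) = S.cd (d.j₀ + i) :=
    (Function.Periodic.map_mod_nat (f := S.cd) S.periodic) _
  have hle : (‖st.x0‖ + ‖st.dir‖ * st.parRad) / amp ≤ S.box := by
    set F : ClusterData → ℝ := fun c =>
      ∑ l : Fin c.len, (‖(c.stage l).x0‖ + ‖(c.stage l).dir‖ * (c.stage l).parRad) / amp
    have h1 : (‖st.x0‖ + ‖st.dir‖ * st.parRad) / amp ≤ F (S.cd (d.j₀ + i)) :=
      Finset.single_le_sum (f := fun l => (‖((S.cd (d.j₀ + i)).stage l).x0‖ +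
          ‖((S.cd (d.j₀ + i)).stage l).dir‖ * ((S.cd (d.j₀ + i)).stage l).parRad) / amp)
        (fun l _ => div_nonneg (add_nonneg (norm_nonneg _) (mul_nonneg (norm_nonneg _)
          ((S.cd (d.j₀ + i)).stage l).parRad_pos.le)) hamp.le) (Finset.mem_univ _)
    have h2 : F (S.cd (d.j₀ + i)) ≤ S.box := by
      rw [← hc]
      exact Finset.single_le_sum (f := fun j => F (S.cd j))
        (fun j _ => Finset.sum_nonneg fun l _ => div_nonneg (add_nonneg (norm_nonneg _)
          (mul_nonneg (norm_nonneg _) ((S.cd j).stage l).parRad_pos.le)) hamp.le)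
        (Finset.mem_range.2 (Nat.mod_lt _ S.period_pos))
    exact h1.trans h2
  refine le_trans ?_ hle
  rw [abs_div, abs_of_pos hamp]
  gcongr
  calc |(st.x0 + st.dir (st.parRad • y)) ⟨k, hk⟩| ≤ ‖st.x0 + st.dir (st.parRad • y)‖ :=
        norm_le_pi_norm (st.x0 + st.dir (st.parRad • y)) ⟨k, hk⟩
    _ ≤ ‖st.x0‖ + ‖st.dir (st.parRad • y)‖ := norm_add_le _ _
    _ ≤ ‖st.x0‖ + ‖st.dir‖ * st.parRad := by
        gcongr
        refine (st.dir.le_opNorm _).trans ?_
        gcongr
        rw [norm_smul, Real.norm_of_nonneg st.parRad_pos.le]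
        exact mul_le_of_le_one_right st.parRad_pos.le hy

theorem Schedule.parOf_continuous (S : Schedule) {j₀ J : ℕ} (i l k : ℕ) :
    Continuous fun x : S.Vars j₀ J => S.parOf x i l k := by
  unfold Schedule.parOf
  simp only
  split_ifs with hi hl hk
  all_goals fun_prop

end Vale.Agent.P225
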